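import Mathlib
import Crest.Prelude.Def_MilnorK

-- ▼ part R009/Defs
section

/-!
Shared definitions for result 9 (S0010).  `Pth p x` : `x` is a `p`-th power, i.e. `x ∈ K^p`.
`FX p x` : the subfield `K^p(x)`.  `PEq p x y` : `x` and `y` agree modulo non-zero `p`-th powers.
-/

set_option autoImplicit false

namespace Crest.Agent.R009

variable {K : Type*} [Field K]

/-- `x` is a `p`-th power. -/
def Pth (p : ℕ) (x : K) : Prop := ∃ a : K, x = a ^ p

/-- The subfield generated by the `p`-th powers and `x`. -/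
def FX (p : ℕ) (x : K) : Subfield K := Subfield.closure (Set.range (fun a : K => a ^ p) ∪ {x})

/-- equality up to a nonzero `p`-th power. -/
def PEq (p : ℕ) (x y : K) : Prop := ∃ a : K, a ≠ 0 ∧ x = a ^ p * y

end Crest.Agent.R009
end

-- ▼ part R009/Basic
section

/-!
Basic facts on `Pth`, `FX`, `PEq`.
-/

set_option autoImplicit false
set_option linter.unusedSectionVars false

namespace Crest.Agent.R009

variable {p : ℕ} [Fact p.Prime] {K : Type*} [Field K] [CharP K p]

open Finset

theorem pth_zero : Pth p (0 : K) := ⟨0, by rw [zero_pow (Fact.out : p.Prime).ne_zero]⟩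

theorem pth_one : Pth p (1 : K) := ⟨1, by rw [one_pow]⟩

theorem pth_pow (a : K) : Pth p (a ^ p) := ⟨a, rfl⟩

theorem Pth.mul {x y : K} (hx : Pth p x) (hy : Pth p y) : Pth p (x * y) := by
  obtain ⟨a, rfl⟩ := hx
  obtain ⟨b, rfl⟩ := hy
  exact ⟨a * b, (mul_pow a b p).symm⟩

theorem Pth.inv {x : K} (hx : Pth p x) : Pth p x⁻¹ := by
  obtain ⟨a, rfl⟩ := hx
  exact ⟨a⁻¹, (inv_pow a p).symm⟩

theorem Pth.div {x y : K} (hx : Pth p x) (hy : Pth p y) : Pth p (x / y) := by
  rw [div_eq_mul_inv]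
  exact hx.mul hy.inv

theorem Pth.add {x y : K} (hx : Pth p x) (hy : Pth p y) : Pth p (x + y) := by
  obtain ⟨a, rfl⟩ := hx
  obtain ⟨b, rfl⟩ := hy
  exact ⟨a + b, (add_pow_char a b p).symm⟩

theorem Pth.neg {x : K} (hx : Pth p x) : Pth p (-x) := by
  have h : Pth p (-1 : K) := ⟨-1, (neg_one_pow_char K p).symm⟩
  simpa using h.mul hx

theorem Pth.sub {x y : K} (hx : Pth p x) (hy : Pth p y) : Pth p (x - y) := by
  rw [sub_eq_add_neg]
  exact hx.add hy.neg

theorem Pth.mem_FX {x y : K} (hy : Pth p y) : y ∈ FX p x := by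
  obtain ⟨a, rfl⟩ := hy
  exact Subfield.subset_closure (Or.inl ⟨a, rfl⟩)

theorem self_mem_FX (x : K) : x ∈ FX p x := Subfield.subset_closure (Or.inr rfl)

/-- the subfield of `p`-th powers. -/
def PF (p : ℕ) [Fact p.Prime] (K : Type*) [Field K] [CharP K p] : Subfield K where
  carrier := {x | Pth p x}
  mul_mem' := Pth.mul
  one_mem' := pth_one
  add_mem' := Pth.add
  zero_mem' := pth_zero
  neg_mem' := Pth.neg
  inv_mem' := fun _ => Pth.inv


/-- induction for membership in a closure of `p`-th powers -/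
theorem FX_le_of {x : K} {M : Subfield K} (hM : ∀ a : K, a ^ p ∈ M) (hx : x ∈ M) : FX p x ≤ M := by
  refine Subfield.closure_le.mpr ?_
  rintro y (⟨a, rfl⟩ | rfl)
  · exact hM a
  · exact hx

theorem FX_le {x y : K} (h : y ∈ FX p x) : FX p y ≤ FX p x :=
  FX_le_of (fun a => (pth_pow a).mem_FX) h

theorem mem_FX_of_pth {x y : K} (hx : Pth p x) : y ∈ FX p x ↔ Pth p y := by
  constructor
  · intro h
    exact FX_le_of (M := PF p K) (fun a => pth_pow a) hx h
  · exact fun h => h.mem_FX

/-- degree of a simple extension: exchange over a subfield `M` containing the `p`-th powers.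
`M(x)` is `IntermediateField.adjoin M {x}`. -/
theorem finrank_adjoin {M : Subfield K} (hM : ∀ a : K, a ^ p ∈ M) {x : K} (hx : x ∉ M) :
    Module.finrank M (IntermediateField.adjoin M ({x} : Set K)) = p ∧
      minpoly M x = Polynomial.X ^ p - Polynomial.C (⟨x ^ p, hM x⟩ : M) := by
  have hirr : Irreducible (Polynomial.X ^ p - Polynomial.C (⟨x ^ p, hM x⟩ : M)) := by
    refine X_pow_sub_C_irreducible_of_prime (Fact.out : p.Prime) ?_
    intro b hb
    apply hx
    have h1 : ((b : K)) ^ p = x ^ p := by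
      have := congrArg (Subtype.val) hb
      simpa using this
    have h2 : (b : K) = x := by
      have := frobenius_inj K p
      exact this (by simpa [frobenius_def] using h1)
    rw [← h2]
    exact b.2
  have hmon : (Polynomial.X ^ p - Polynomial.C (⟨x ^ p, hM x⟩ : M)).Monic :=
    Polynomial.monic_X_pow_sub_C _ (Fact.out : p.Prime).ne_zero
  have hroot : Polynomial.aeval x (Polynomial.X ^ p - Polynomial.C (⟨x ^ p, hM x⟩ : M)) = 0 := by
    simp only [map_sub, map_pow, Polynomial.aeval_X, Polynomial.aeval_C]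
    exact sub_self _
  have hmin := minpoly.eq_of_irreducible_of_monic hirr hroot hmon
  have hint : IsIntegral M x := ⟨_, hmon, hroot⟩
  refine ⟨?_, hmin.symm⟩
  rw [IntermediateField.adjoin.finrank hint, ← hmin]
  exact Polynomial.natDegree_X_pow_sub_C


/-- the subfield `M(x)` -/
def adj (M : Subfield K) (x : K) : Subfield K := (IntermediateField.adjoin M ({x} : Set K)).toSubfield

theorem mem_adj {M : Subfield K} {x y : K} :
    y ∈ adj M x ↔ y ∈ IntermediateField.adjoin M ({x} : Set K) := Iff.rfl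

theorem self_mem_adj (M : Subfield K) (x : K) : x ∈ adj M x :=
  IntermediateField.mem_adjoin_simple_self M x

theorem le_adj (M : Subfield K) (x : K) : M ≤ adj M x := fun y hy =>
  (IntermediateField.adjoin M ({x} : Set K)).algebraMap_mem ⟨y, hy⟩

theorem adj_le {M N : Subfield K} {x : K} (hMN : M ≤ N) (hx : x ∈ N) : adj M x ≤ N := by
  let N' : IntermediateField M K :=
    { N with
      algebraMap_mem' := fun r => hMN r.2 }
  have h : IntermediateField.adjoin M ({x} : Set K) ≤ N' := by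
    rw [IntermediateField.adjoin_le_iff]
    rintro y rfl
    exact hx
  intro y hy
  exact h hy

theorem FX_eq_adj (x : K) : FX p x = adj (PF p K) x := by
  apply le_antisymm
  · exact FX_le_of (fun a => le_adj _ _ (pth_pow a)) (self_mem_adj _ _)
  · exact adj_le (fun y hy => Pth.mem_FX hy) (self_mem_FX x)

theorem adj_exchange {M : Subfield K} (hM : ∀ a : K, a ^ p ∈ M) {x z : K} (hx : x ∈ adj M z)
    (hxM : x ∉ M) : z ∈ adj M x := by
  have hzM : z ∉ M := fun h => hxM (adj_le le_rfl h hx)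
  have h1 := (finrank_adjoin hM hxM).1
  have h2 := (finrank_adjoin hM hzM).1
  have hp : 0 < p := (Fact.out : p.Prime).pos
  have hle : IntermediateField.adjoin M ({x} : Set K) ≤ IntermediateField.adjoin M ({z} : Set K) := by
    rw [IntermediateField.adjoin_le_iff]
    rintro y rfl
    exact hx
  have : FiniteDimensional M (IntermediateField.adjoin M ({z} : Set K)) := by
    apply Module.finite_of_finrank_pos
    omega
  have heq := IntermediateField.eq_of_le_of_finrank_eq hle (by rw [h1, h2])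
  rw [mem_adj, heq]
  exact IntermediateField.mem_adjoin_simple_self M z

theorem FX_exchange {x y : K} (h : y ∈ FX p x) (hy : ¬ Pth p y) : x ∈ FX p y := by
  rw [FX_eq_adj] at h ⊢
  exact adj_exchange (fun a => pth_pow a) h hy

theorem FX_eq {x y : K} (h : y ∈ FX p x) (hy : ¬ Pth p y) : FX p y = FX p x :=
  le_antisymm (FX_le h) (FX_le (FX_exchange h hy))

/-- explicit form of the elements of `K^p(x)` -/
theorem mem_FX_iff {x y : K} :
    y ∈ FX p x ↔ ∃ a : ℕ → K, y = ∑ i ∈ range p, (a i) ^ p * x ^ i := by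
  constructor
  · intro h
    rw [FX_eq_adj, mem_adj] at h
    set q : Polynomial (PF p K) :=
      Polynomial.X ^ p - Polynomial.C (⟨x ^ p, pth_pow x⟩ : PF p K) with hq
    have hmon : q.Monic := Polynomial.monic_X_pow_sub_C _ (Fact.out : p.Prime).ne_zero
    have hroot : Polynomial.aeval x q = 0 := by
      simp only [hq, map_sub, map_pow, Polynomial.aeval_X, Polynomial.aeval_C]
      exact sub_self _
    have hint : IsAlgebraic (PF p K) x := ⟨q, hmon.ne_zero, hroot⟩
    have h' : y ∈ (IntermediateField.adjoin (PF p K) ({x} : Set K)).toSubalgebra := h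
    rw [IntermediateField.adjoin_simple_toSubalgebra_of_isAlgebraic hint,
      Algebra.adjoin_singleton_eq_range_aeval] at h'
    obtain ⟨P, hP⟩ := h'
    have hP' : Polynomial.aeval x (P %ₘ q) = y := by
      rw [Polynomial.aeval_modByMonic_eq_self_of_root hroot]
      exact hP
    have hdeg : (P %ₘ q).natDegree < p := by
      have h1 : q.natDegree = p := Polynomial.natDegree_X_pow_sub_C
      have h2 := Polynomial.natDegree_modByMonic_lt P hmon (by
        intro h3
        rw [h3, Polynomial.natDegree_one] at h1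
        exact (Fact.out : p.Prime).ne_zero h1.symm)
      omega
    rw [Polynomial.aeval_eq_sum_range' hdeg] at hP'
    have hc : ∀ i, ∃ a : K, (((P %ₘ q).coeff i : PF p K) : K) = a ^ p := fun i => ((P %ₘ q).coeff i).2
    choose a ha using hc
    refine ⟨a, ?_⟩
    rw [← hP']
    refine Finset.sum_congr rfl (fun i _ => ?_)
    rw [← ha i]
    rfl
  · rintro ⟨a, rfl⟩
    refine Subfield.sum_mem _ (fun i _ => ?_)
    exact mul_mem (pth_pow (a i)).mem_FX (pow_mem (self_mem_FX x) i)

/-- linear independence of `1, x, …, x^(p-1)` over `K^p` -/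
theorem coeff_eq_zero {x : K} (hx : ¬ Pth p x) {a : ℕ → K}
    (h : ∑ i ∈ range p, (a i) ^ p * x ^ i = 0) : ∀ i < p, a i = 0 := by
  have hmin := (finrank_adjoin (M := PF p K) (fun a => pth_pow a) hx).2
  set P : Polynomial (PF p K) :=
    ∑ i ∈ range p, Polynomial.C (⟨(a i) ^ p, pth_pow (a i)⟩ : PF p K) * Polynomial.X ^ i with hP
  have hroot : Polynomial.aeval x P = 0 := by
    rw [← h, hP, map_sum]
    refine Finset.sum_congr rfl (fun i _ => ?_)
    simp only [map_mul, map_pow, Polynomial.aeval_X, Polynomial.aeval_C]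
    rfl
  have hdegP : P.degree < p := by
    rw [hP]
    refine lt_of_le_of_lt (Polynomial.degree_sum_le _ _) ?_
    rw [Finset.sup_lt_iff (by exact_mod_cast WithBot.bot_lt_coe p)]
    intro i hi
    refine lt_of_le_of_lt (Polynomial.degree_C_mul_X_pow_le i _) ?_
    exact_mod_cast Finset.mem_range.mp hi
  have hP0 : P = 0 := by
    by_contra hne
    have h1 := minpoly.degree_le_of_ne_zero (PF p K) x hne hroot
    rw [hmin, Polynomial.degree_X_pow_sub_C (Fact.out : p.Prime).pos] at h1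
    exact absurd (lt_of_le_of_lt h1 hdegP) (lt_irrefl _)
  intro i hi
  have hci : P.coeff i = (⟨(a i) ^ p, pth_pow (a i)⟩ : PF p K) := by
    rw [hP, Polynomial.finsetSum_coeff]
    rw [Finset.sum_eq_single i]
    · simp
    · intro j _ hj
      simp [Polynomial.coeff_X_pow, Ne.symm hj]
    · intro hn
      exact absurd (Finset.mem_range.mpr hi) hn
  rw [hP0, Polynomial.coeff_zero] at hci
  have : (a i) ^ p = 0 := (congrArg Subtype.val hci).symm
  exact pow_eq_zero_iff (Fact.out : p.Prime).ne_zero |>.mp this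

/-- kernel of a derivation, as a subfield -/
def kerD (D : Derivation ℤ K K) : Subfield K where
  carrier := {x | D x = 0}
  mul_mem' := by
    intro a b ha hb
    simp only [Set.mem_ofPred_eq] at *
    simp [Derivation.leibniz, ha, hb]
  one_mem' := D.map_one_eq_zero
  add_mem' := by
    intro a b ha hb
    simp only [Set.mem_ofPred_eq] at *
    simp [ha, hb]
  zero_mem' := D.map_zero
  neg_mem' := by
    intro a ha
    simp only [Set.mem_ofPred_eq] at *
    simp [ha]
  inv_mem' := by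
    intro a ha
    simp only [Set.mem_ofPred_eq] at *
    simp [Derivation.leibniz_inv, ha]


theorem D_pow_p (D : Derivation ℤ K K) (a : K) : D (a ^ p) = 0 := by
  rw [Derivation.leibniz_pow]
  simp

theorem D_pth (D : Derivation ℤ K K) {x : K} (hx : Pth p x) : D x = 0 := by
  obtain ⟨a, rfl⟩ := hx
  exact D_pow_p D a

theorem D_eq_zero_of_mem_FX {D : Derivation ℤ K K} {x y : K} (hx : D x = 0) (hy : y ∈ FX p x) :
    D y = 0 :=
  FX_le_of (M := kerD D) (fun a => D_pow_p D a) hx hy

/-- a subfield `M ⊇ K^p` with `x ∉ M` is killed by a derivation not killing `x`. -/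
theorem exists_derivation {M : Subfield K} (hM : ∀ a : K, a ^ p ∈ M) {x : K} (hx : x ∉ M) :
    ∃ D : Derivation ℤ K K, (∀ y ∈ M, D y = 0) ∧ D x ≠ 0 := by
  classical
  -- a maximal subfield containing `M` and not `x`
  obtain ⟨N, hMN, hN⟩ := zorn_le_nonempty₀ {N : Subfield K | M ≤ N ∧ x ∉ N} (by
    intro c hc hchain N₀ hN₀
    refine ⟨sSup c, ⟨?_, ?_⟩, fun N hN => le_sSup hN⟩
    · exact le_trans (hc hN₀).1 (le_sSup hN₀)
    · intro hxs
      rw [Subfield.mem_sSup_of_directedOn ⟨N₀, hN₀⟩ hchain.directedOn] at hxs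
      obtain ⟨N, hN, hxN⟩ := hxs
      exact (hc hN).2 hxN) M ⟨le_rfl, hx⟩
  have hxN : x ∉ N := hN.1.2
  have hpN : ∀ a : K, a ^ p ∈ N := fun a => hMN (hM a)
  -- `K = N(x)`
  have htop : ∀ z : K, z ∈ adj N x := by
    intro z
    by_cases hz : z ∈ N
    · exact le_adj N x hz
    · have hxz : x ∈ adj N z := by
        by_contra hcon
        have h1 : adj N z ≤ N := hN.2 ⟨le_trans hMN (le_adj N z), hcon⟩ (le_adj N z)
        exact hz (h1 (self_mem_adj N z))
      exact adj_exchange hpN hxz hxN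
  -- `K / N` is finite, purely inseparable, and not separable
  have htop' : IntermediateField.adjoin N ({x} : Set K) = ⊤ := by
    rw [eq_top_iff]
    intro z _
    exact htop z
  have hfin : FiniteDimensional N K := by
    have h1 := (finrank_adjoin hpN hxN).1
    rw [htop'] at h1
    rw [IntermediateField.finrank_top'] at h1
    apply Module.finite_of_finrank_pos
    rw [h1]
    exact (Fact.out : p.Prime).pos
  have hnsep : ¬ Algebra.IsSeparable N K := by
    intro hsep
    have h1 : (minpoly N x).Separable := Algebra.IsSeparable.isSeparable N x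
    rw [(finrank_adjoin hpN hxN).2] at h1
    have hder : Polynomial.derivative
        (Polynomial.X ^ p - Polynomial.C (⟨x ^ p, hpN x⟩ : N)) = 0 := by
      rw [Polynomial.derivative_sub, Polynomial.derivative_C, sub_zero,
        Polynomial.derivative_X_pow]
      have : ((p : ℕ) : N) = 0 := by
        apply Subtype.ext
        simp
      rw [this]
      simp
    rw [Polynomial.separable_def, hder] at h1
    have h2 : IsUnit (Polynomial.X ^ p - Polynomial.C (⟨x ^ p, hpN x⟩ : N)) :=
      isCoprime_zero_right.mp h1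
    have h3 := Polynomial.degree_eq_zero_of_isUnit h2
    rw [Polynomial.degree_X_pow_sub_C (Fact.out : p.Prime).pos] at h3
    have : p = 0 := by exact_mod_cast h3
    exact (Fact.out : p.Prime).ne_zero this
  have hnunr : ¬ Algebra.FormallyUnramified N K := by
    intro hunr
    exact hnsep ((Algebra.FormallyUnramified.iff_isSeparable N K).mp hunr)
  -- a non-zero derivation
  by_contra hcon
  push Not at hcon
  apply hnunr
  rw [Algebra.formallyUnramified_iff]
  have hall : ∀ D : Derivation N K K, D = 0 := by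
    intro D
    ext z
    let D' : Derivation ℤ K K := D.restrictScalars ℤ
    have hker : ∀ y ∈ N, D' y = 0 := by
      intro y hy
      exact D.map_algebraMap ⟨y, hy⟩
    have hx0 : D' x = 0 := hcon D' (fun y hy => hker y (hMN hy))
    have h1 : adj N x ≤ kerD D' := adj_le (fun y hy => hker y hy) hx0
    exact h1 (htop z)
  have hlin : ∀ f : Ω[K⁄N] →ₗ[K] K, f = 0 := by
    intro f
    have := hall ((KaehlerDifferential.linearMapEquivDerivation N K) f)
    exact (LinearEquiv.map_eq_zero_iff _).mp this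
  refine ⟨fun a b => ?_⟩
  rw [← sub_eq_zero]
  exact (Module.forall_dual_apply_eq_zero_iff K _).mp (fun f => by rw [hlin f]; rfl)

/-- derivations dual to a `p`-independent pair -/
theorem exists_derivations {x y : K} (hx : ¬ Pth p x) (hy : y ∉ FX p x) :
    ∃ D₁ D₂ : Derivation ℤ K K, D₁ x = x ∧ D₁ y = 0 ∧ D₂ x = 0 ∧ D₂ y = y := by
  have hyp : ¬ Pth p y := fun h => hy h.mem_FX
  have hx' : x ∉ FX p y := fun h => hy (FX_exchange h hx)
  obtain ⟨D₁, h1, h1'⟩ := exists_derivation (fun a => (pth_pow a).mem_FX) hx'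
  obtain ⟨D₂, h2, h2'⟩ := exists_derivation (fun a => (pth_pow a).mem_FX) hy
  refine ⟨(x / D₁ x) • D₁, (y / D₂ y) • D₂, ?_, ?_, ?_, ?_⟩
  · simp only [Derivation.smul_apply, smul_eq_mul]
    field_simp
  · simp only [Derivation.smul_apply, smul_eq_mul]
    rw [h1 y (self_mem_FX y), mul_zero]
  · simp only [Derivation.smul_apply, smul_eq_mul]
    rw [h2 x (self_mem_FX x), mul_zero]
  · simp only [Derivation.smul_apply, smul_eq_mul]
    field_simp

end Crest.Agent.R009
end

-- ▼ part R009/Config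
section

/-!
The configuration lemma.
-/

set_option autoImplicit false
set_option linter.unusedSectionVars false

namespace Crest.Agent.R009

variable {p : ℕ} [Fact p.Prime] {K : Type*} [Field K] [CharP K p]

open Finset

theorem natCast_pow_p (i : ℕ) : (i : K) ^ p = (i : K) := by
  have h := map_natCast (frobenius K p) i
  rw [frobenius_def] at h
  exact h

theorem D_pow_of_eq {D : Derivation ℤ K K} {x : K} (hD : D x = x) (i : ℕ) :
    D (x ^ i) = (i : K) * x ^ i := by
  rw [Derivation.leibniz_pow, hD]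
  rcases Nat.eq_zero_or_pos i with rfl | hi
  · simp
  · obtain ⟨j, rfl⟩ : ∃ j, i = j + 1 := ⟨i - 1, by omega⟩
    simp only [Nat.add_sub_cancel, smul_eq_mul, nsmul_eq_mul, pow_succ]

theorem D_sum {D : Derivation ℤ K K} {x : K} (hD : D x = x) (a : ℕ → K) :
    D (∑ i ∈ range p, (a i) ^ p * x ^ i) = ∑ i ∈ range p, (i : K) * ((a i) ^ p * x ^ i) := by
  rw [map_sum]
  refine Finset.sum_congr rfl (fun i _ => ?_)
  rw [Derivation.leibniz, D_pow_p (p := p) D (a i), D_pow_of_eq hD]
  simp only [smul_eq_mul, mul_zero, add_zero]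
  ring

theorem D_mem_FX {D : Derivation ℤ K K} {x w : K} (hD : D x = x) (hw : w ∈ FX p x) :
    D w ∈ FX p x := by
  obtain ⟨a, rfl⟩ := mem_FX_iff.mp hw
  rw [D_sum hD]
  refine Subfield.sum_mem _ (fun i _ => ?_)
  exact mul_mem (natCast_mem _ i) (mul_mem (pth_pow (a i)).mem_FX (pow_mem (self_mem_FX x) i))

/-- eigenvectors of the derivation `x d/dx` -/
theorem eigen {D : Derivation ℤ K K} {x w c : K} (hx : ¬ Pth p x) (hD : D x = x)
    (hw : w ∈ FX p x) (hw0 : w ≠ 0) (hc : Pth p c) (h : D w = c * w) :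
    ∃ i : ℕ, i < p ∧ c = (i : K) ∧ ∃ r : K, w = r ^ p * x ^ i := by
  obtain ⟨a, ha⟩ := mem_FX_iff.mp hw
  obtain ⟨g, rfl⟩ := hc
  have h1 : ∑ i ∈ range p, (((i : K) - g) * a i) ^ p * x ^ i = 0 := by
    have h2 : ∑ i ∈ range p, (((i : K) - g) * a i) ^ p * x ^ i =
        ∑ i ∈ range p, (i : K) * ((a i) ^ p * x ^ i) - g ^ p * ∑ i ∈ range p, (a i) ^ p * x ^ i := by
      rw [Finset.mul_sum, ← Finset.sum_sub_distrib]
      refine Finset.sum_congr rfl (fun i _ => ?_)
      rw [mul_pow, sub_pow_char, natCast_pow_p]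
      ring
    rw [h2, ← D_sum hD, ← ha, h, sub_self]
  have h3 := coeff_eq_zero hx h1
  have h4 : ∃ i, i < p ∧ a i ≠ 0 := by
    by_contra hcon
    push Not at hcon
    apply hw0
    rw [ha]
    refine Finset.sum_eq_zero (fun i hi => ?_)
    rw [hcon i (Finset.mem_range.mp hi), zero_pow (Fact.out : p.Prime).ne_zero, zero_mul]
  obtain ⟨i, hi, hai⟩ := h4
  have hgi : g = (i : K) := by
    have := h3 i hi
    rcases mul_eq_zero.mp this with h5 | h5
    · exact (sub_eq_zero.mp h5).symm
    · exact absurd h5 hai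
  refine ⟨i, hi, by rw [hgi, natCast_pow_p], a i, ?_⟩
  rw [ha]
  refine Finset.sum_eq_single i (fun j hj hji => ?_) (fun hn => absurd (Finset.mem_range.mpr hi) hn)
  have hj' := Finset.mem_range.mp hj
  have h5 := h3 j hj'
  rcases mul_eq_zero.mp h5 with h6 | h6
  · exfalso
    apply hji
    rw [hgi, sub_eq_zero] at h6
    exact CharP.natCast_injOn_Iio K p hj' hi h6
  · rw [h6, zero_pow (Fact.out : p.Prime).ne_zero, zero_mul]

theorem pth_of_D_eq_zero {D : Derivation ℤ K K} {x w : K} (hx : ¬ Pth p x) (hD : D x = x)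
    (hw : w ∈ FX p x) (h : D w = 0) : Pth p w := by
  by_cases hw0 : w = 0
  · rw [hw0]; exact pth_zero
  obtain ⟨i, hi, hci, r, hr⟩ := eigen hx hD hw hw0 pth_zero (by rw [h, zero_mul])
  have hi0 : i = 0 := by
    have h0 : ((0 : ℕ) : K) = (i : K) := by rw [← hci]; simp
    exact (CharP.natCast_injOn_Iio K p (show (0:ℕ) < p from (Fact.out : p.Prime).pos) hi h0).symm
  rw [hr, hi0, pow_zero, mul_one]
  exact pth_pow r

/-- the one-variable part of the configuration lemma: from `α - 1 = r^p x^i`, `α = u / D u`. -/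
theorem config_one {D : Derivation ℤ K K} {x u : K} (hx : ¬ Pth p x) (hD : D x = x)
    (hu : u ∈ FX p x) (hu' : ∀ i < p, ∀ r : K, u ≠ r ^ p * x ^ i) {i : ℕ} (hi : i < p) (hi0 : 0 < i)
    {r : K} (hr : u / D u = 1 + r ^ p * x ^ i) (hr0 : r ≠ 0) (hDu : D u ≠ 0) :
    ∃ s : K, s ≠ 0 ∧ PEq p (u ^ (p - i)) (x ^ (p - i) + s ^ p) := by
  have hu0 : u ≠ 0 := by
    intro h
    apply hDu
    rw [h]
    exact D.map_zero
  have hx0 : x ≠ 0 := by
    intro h
    apply hx
    rw [h]
    exact pth_zero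
  set α := u / D u with hα
  have hα0 : α ≠ 0 := div_ne_zero hu0 hDu
  have hDuα : D u * α = u := by
    rw [hα]
    field_simp
  have hwα : x ^ (p - i) + (r * x) ^ p = x ^ (p - i) * α := by
    rw [hr, mul_add, mul_one, mul_pow]
    congr 1
    have : x ^ p = x ^ (p - i) * x ^ i := by
      rw [← pow_add]
      congr 1
      omega
    rw [this]
    ring
  have hαmem : α ∈ FX p x := by
    rw [hα]
    exact div_mem hu (D_mem_FX hD hu)
  have hw0 : x ^ (p - i) * α ≠ 0 := mul_ne_zero (pow_ne_zero _ hx0) hα0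
  set c := p - i with hc
  have hDα : D α = (i : K) * (α - 1) := by
    have h1 : α - 1 = r ^ p * x ^ i := by rw [hr]; ring
    have h2 : D α = D (α - 1) := by
      rw [map_sub, D.map_one_eq_zero, sub_zero]
    rw [h2, h1, Derivation.leibniz, D_pow_p (p := p) D r, D_pow_of_eq hD]
    simp only [smul_eq_mul, mul_zero, add_zero]
    ring
  have hci : (c : K) = - (i : K) := by
    have h1 : ((c + i : ℕ) : K) = 0 := by
      have : c + i = p := by omega
      rw [this]
      exact CharP.cast_eq_zero K p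
    rw [Nat.cast_add] at h1
    exact eq_neg_of_add_eq_zero_left h1
  have hDuc : D (u ^ c) * α = (c : K) * u ^ c := by
    rw [Derivation.leibniz_pow]
    obtain ⟨j, hj⟩ : ∃ j, c = j + 1 := ⟨c - 1, by omega⟩
    rw [hj]
    simp only [Nat.add_sub_cancel, smul_eq_mul, nsmul_eq_mul, pow_succ]
    calc ((j + 1 : ℕ) : K) * (u ^ j * D u) * α = ((j + 1 : ℕ) : K) * u ^ j * (D u * α) := by ring
      _ = _ := by rw [hDuα]; ring
  have hDw : D (x ^ c * α) = (c : K) * x ^ c := by
    rw [Derivation.leibniz, D_pow_of_eq hD, hDα]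
    simp only [smul_eq_mul]
    rw [hci]
    ring
  have hq : D (u ^ c / (x ^ c * α)) = 0 := by
    have h1 : u ^ c = (u ^ c / (x ^ c * α)) * (x ^ c * α) := by
      field_simp
    have h2 : D (u ^ c) = (u ^ c / (x ^ c * α)) * D (x ^ c * α) +
        (x ^ c * α) * D (u ^ c / (x ^ c * α)) := by
      conv_lhs => rw [h1]
      rw [Derivation.leibniz]
      simp only [smul_eq_mul]
    rw [hDw] at h2
    have h3 : D (u ^ c) = (u ^ c / (x ^ c * α)) * ((c : K) * x ^ c) := by
      have h4 : D (u ^ c) = (c : K) * u ^ c / α := by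
        rw [← hDuc]
        field_simp
      rw [h4]
      field_simp
    rw [h3] at h2
    have h5 : (x ^ c * α) * D (u ^ c / (x ^ c * α)) = 0 := by
      have := h2
      linear_combination -h2
    rcases mul_eq_zero.mp h5 with h6 | h6
    · exact absurd h6 hw0
    · exact h6
  have hmem : u ^ c / (x ^ c * α) ∈ FX p x :=
    div_mem (pow_mem hu c) (mul_mem (pow_mem (self_mem_FX x) c) hαmem)
  obtain ⟨t, ht⟩ := pth_of_D_eq_zero hx hD hmem hq
  have ht0 : t ≠ 0 := by
    rintro rfl
    rw [zero_pow (Fact.out : p.Prime).ne_zero, div_eq_zero_iff] at ht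
    rcases ht with h | h
    · exact pow_ne_zero _ hu0 h
    · exact hw0 h
  refine ⟨r * x, mul_ne_zero hr0 hx0, t, ht0, ?_⟩
  rw [hwα, ← ht]
  field_simp

theorem config {x y u v z : K} (hx : ¬ Pth p x) (hy : y ∉ FX p x)
    (hu : u ∈ FX p x) (hv : v ∈ FX p y)
    (hu' : ∀ i < p, ∀ r : K, u ≠ r ^ p * x ^ i) (hv' : ∀ i < p, ∀ r : K, v ≠ r ^ p * y ^ i)
    (hz : z ≠ 0) (hz1 : z / y ∈ FX p (x / y)) (hz2 : z / v ∈ FX p (u / v)) :
    ∃ c : ℕ, 0 < c ∧ c < p ∧ (∃ r : K, r ≠ 0 ∧ PEq p (u ^ c) (x ^ c + r ^ p)) ∧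
      (∃ s : K, s ≠ 0 ∧ PEq p (v ^ c) (y ^ c + s ^ p)) := by
  obtain ⟨D₁, D₂, h1x, h1y, h2x, h2y⟩ := exists_derivations hx hy
  have hyp : ¬ Pth p y := fun h => hy h.mem_FX
  have hx0 : x ≠ 0 := by
    rintro rfl
    exact hx pth_zero
  have hy0 : y ≠ 0 := by
    rintro rfl
    exact hyp pth_zero
  have hD2u : D₂ u = 0 := D_eq_zero_of_mem_FX h2x hu
  have hD1v : D₁ v = 0 := D_eq_zero_of_mem_FX h1y hv
  have hu0 : u ≠ 0 := by
    intro h
    refine hu' 0 (Fact.out : p.Prime).pos 0 ?_
    rw [h, zero_pow (Fact.out : p.Prime).ne_zero, zero_mul]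
  have hv0 : v ≠ 0 := by
    intro h
    refine hv' 0 (Fact.out : p.Prime).pos 0 ?_
    rw [h, zero_pow (Fact.out : p.Prime).ne_zero, zero_mul]
  -- no eigenvector
  have hune : ∀ c : K, Pth p c → D₁ u ≠ c * u := by
    intro c hc h
    obtain ⟨i, hi, -, r, hr⟩ := eigen hx h1x hu hu0 hc h
    exact hu' i hi r hr
  have hvne : ∀ c : K, Pth p c → D₂ v ≠ c * v := by
    intro c hc h
    obtain ⟨i, hi, -, r, hr⟩ := eigen hyp h2y hv hv0 hc h
    exact hv' i hi r hr
  have hDu : D₁ u ≠ 0 := by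
    have := hune 0 pth_zero
    rwa [zero_mul] at this
  have hDv : D₂ v ≠ 0 := by
    have := hvne 0 pth_zero
    rwa [zero_mul] at this
  obtain ⟨α, hα⟩ : ∃ α, α = u / D₁ u := ⟨_, rfl⟩
  obtain ⟨β, hβ⟩ : ∃ β, β = v / D₂ v := ⟨_, rfl⟩
  have hαmem : α ∈ FX p x := hα ▸ div_mem hu (D_mem_FX h1x hu)
  have hβmem : β ∈ FX p y := hβ ▸ div_mem hv (D_mem_FX h2y hv)
  have hα0 : α ≠ 0 := hα ▸ div_ne_zero hu0 hDu
  have hβ0 : β ≠ 0 := hβ ▸ div_ne_zero hv0 hDv
  have hαu : α * D₁ u = u := by rw [hα]; field_simp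
  have hβv : β * D₂ v = v := by rw [hβ]; field_simp
  have hα1 : α - 1 ≠ 0 := by
    intro h
    have : α = 1 := sub_eq_zero.mp h
    rw [this, one_mul] at hαu
    exact hune 1 pth_one (by rw [hαu, one_mul])
  have hβ1 : β - 1 ≠ 0 := by
    intro h
    have : β = 1 := sub_eq_zero.mp h
    rw [this, one_mul] at hβv
    exact hvne 1 pth_one (by rw [hβv, one_mul])
  -- Euler equations
  have hE1 : D₁ z + D₂ z = z := by
    have h1 : (D₁ + D₂) (x / y) = 0 := by
      have h2 : x = (x / y) * y := by field_simp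
      have h3 : (D₁ + D₂) x = (x / y) * (D₁ + D₂) y + y * (D₁ + D₂) (x / y) := by
        conv_lhs => rw [h2]
        rw [Derivation.leibniz]
        simp only [smul_eq_mul]
      simp only [Derivation.add_apply, h1x, h1y, h2x, h2y, add_zero, zero_add] at h3 ⊢
      have h4 : y * (D₁ (x / y) + D₂ (x / y)) = 0 := by
        have h5 : x / y * y = x := by field_simp
        linear_combination -h3 - h5
      rcases mul_eq_zero.mp h4 with h6 | h6
      · exact absurd h6 hy0
      · exact h6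
    have h2 : (D₁ + D₂) (z / y) = 0 := D_eq_zero_of_mem_FX h1 hz1
    have h3 : z = (z / y) * y := by field_simp
    have h4 : (D₁ + D₂) z = (z / y) * (D₁ + D₂) y + y * (D₁ + D₂) (z / y) := by
      conv_lhs => rw [h3]
      rw [Derivation.leibniz]
      simp only [smul_eq_mul]
    rw [h2, mul_zero, add_zero] at h4
    simp only [Derivation.add_apply, h1y, h2y, zero_add] at h4
    rw [h4]
    exact h3.symm
  have hE2 : α * D₁ z + β * D₂ z = z := by
    set E := α • D₁ + β • D₂ with hE
    have hEu : E u = u := by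
      simp only [hE, Derivation.add_apply, Derivation.smul_apply, smul_eq_mul, hD2u, mul_zero,
        add_zero, hαu]
    have hEv : E v = v := by
      simp only [hE, Derivation.add_apply, Derivation.smul_apply, smul_eq_mul, hD1v, mul_zero,
        zero_add, hβv]
    have h1 : E (u / v) = 0 := by
      have h2 : u = (u / v) * v := by field_simp
      have h3 : E u = (u / v) * E v + v * E (u / v) := by
        conv_lhs => rw [h2]
        rw [Derivation.leibniz]
        simp only [smul_eq_mul]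
      rw [hEu, hEv] at h3
      have h4 : v * E (u / v) = 0 := by
        have h5 : u / v * v = u := by field_simp
        linear_combination -h3 - h5
      rcases mul_eq_zero.mp h4 with h6 | h6
      · exact absurd h6 hv0
      · exact h6
    have h2 : E (z / v) = 0 := D_eq_zero_of_mem_FX h1 hz2
    have h3 : z = (z / v) * v := by field_simp
    have h4 : E z = (z / v) * E v + v * E (z / v) := by
      conv_lhs => rw [h3]
      rw [Derivation.leibniz]
      simp only [smul_eq_mul]
    rw [h2, mul_zero, add_zero, hEv, ← h3] at h4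
    simpa only [hE, Derivation.add_apply, Derivation.smul_apply, smul_eq_mul] using h4
  -- commutator
  have hcomm : D₁ (D₂ z) = D₂ (D₁ z) := by
    have hbx : ⁅D₁, D₂⁆ x = 0 := by
      rw [Derivation.commutator_apply, h2x, h1x, h2x, map_zero, sub_zero]
    have hby : ⁅D₁, D₂⁆ y = 0 := by
      rw [Derivation.commutator_apply, h2y, h1y, map_zero, sub_zero]
    have hxk : x ∈ kerD ⁅D₁, D₂⁆ := hbx
    have hyk : y ∈ kerD ⁅D₁, D₂⁆ := hby
    have h1 : z / y ∈ kerD ⁅D₁, D₂⁆ :=
      FX_le_of (M := kerD ⁅D₁, D₂⁆) (fun a => D_pow_p _ a) (div_mem hxk hyk) hz1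
    have h2 : z ∈ kerD ⁅D₁, D₂⁆ := by
      have : z = (z / y) * y := by field_simp
      rw [this]
      exact mul_mem h1 hyk
    have h3 : ⁅D₁, D₂⁆ z = 0 := h2
    rw [Derivation.commutator_apply] at h3
    exact sub_eq_zero.mp h3
  have hD2α : D₂ α = 0 := D_eq_zero_of_mem_FX h2x hαmem
  have hD1β : D₁ β = 0 := D_eq_zero_of_mem_FX h1y hβmem
  have hA : D₁ (D₁ z) + D₁ (D₂ z) = D₁ z := by
    rw [← map_add, hE1]
  have hB : D₂ (D₁ z) + D₂ (D₂ z) = D₂ z := by
    rw [← map_add, hE1]
  have h1E : D₁ (α * D₁ z + β * D₂ z) = D₁ z := by rw [hE2]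
  have h2E : D₂ (α * D₁ z + β * D₂ z) = D₂ z := by rw [hE2]
  rw [map_add, Derivation.leibniz, Derivation.leibniz, hD1β] at h1E
  rw [map_add, Derivation.leibniz, Derivation.leibniz, hD2α] at h2E
  simp only [smul_eq_mul, mul_zero, add_zero] at h1E h2E
  have hkey : D₁ α * D₁ z + D₂ β * D₂ z = 0 := by
    linear_combination h1E + h2E + hE1 - hE2 - α * hA - β * hB + (β - α) * (-hcomm)
  have hkey2 : D₁ α * (β - 1) = D₂ β * (α - 1) := by
    have h1 : D₁ z * (α - β) = z * (1 - β) := by
      linear_combination hE2 - β * hE1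
    have h2 : D₂ z * (α - β) = z * (α - 1) := by
      linear_combination α * hE1 - hE2
    have h3 : z * (D₁ α * (β - 1) - D₂ β * (α - 1)) = 0 := by
      linear_combination (-(α - β)) * hkey + D₁ α * h1 + D₂ β * h2
    rcases mul_eq_zero.mp h3 with h4 | h4
    · exact absurd h4 hz
    · exact sub_eq_zero.mp h4
  -- the common eigenvalue
  set c := D₁ α / (α - 1) with hc
  have hc' : c = D₂ β / (β - 1) := by
    rw [hc, div_eq_div_iff hα1 hβ1, hkey2]
  have hcx : c ∈ FX p x := div_mem (D_mem_FX h1x hαmem) (sub_mem hαmem (one_mem _))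
  have hcy : c ∈ FX p y := by
    rw [hc']
    exact div_mem (D_mem_FX h2y hβmem) (sub_mem hβmem (one_mem _))
  have hcp : Pth p c := pth_of_D_eq_zero hx h1x hcx (D_eq_zero_of_mem_FX h1y hcy)
  have hα' : D₁ (α - 1) = c * (α - 1) := by
    rw [map_sub, D₁.map_one_eq_zero, sub_zero, hc]
    field_simp
  have hβ' : D₂ (β - 1) = c * (β - 1) := by
    rw [map_sub, D₂.map_one_eq_zero, sub_zero, hc']
    field_simp
  obtain ⟨i, hi, hci, r, hr⟩ := eigen hx h1x (sub_mem hαmem (one_mem _)) hα1 hcp hα'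
  obtain ⟨j, hj, hcj, s, hs⟩ := eigen hyp h2y (sub_mem hβmem (one_mem _)) hβ1 hcp hβ'
  have hij : i = j := CharP.natCast_injOn_Iio K p hi hj (by rw [← hci, ← hcj])
  subst hij
  have hr0 : r ≠ 0 := by
    rintro rfl
    rw [zero_pow (Fact.out : p.Prime).ne_zero, zero_mul] at hr
    exact hα1 hr
  have hs0 : s ≠ 0 := by
    rintro rfl
    rw [zero_pow (Fact.out : p.Prime).ne_zero, zero_mul] at hs
    exact hβ1 hs
  have hi0 : 0 < i := by
    rcases Nat.eq_zero_or_pos i with rfl | h
    · exfalso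
      rw [pow_zero, mul_one] at hr
      have h1 : Pth p α := by
        have : α = 1 + r ^ p := by rw [← hr]; ring
        rw [this]
        exact pth_one.add (pth_pow r)
      refine hune α⁻¹ h1.inv ?_
      rw [eq_comm, inv_mul_eq_iff_eq_mul₀ hα0]
      exact hαu.symm
    · exact h
  have hr' : u / D₁ u = 1 + r ^ p * x ^ i := by
    rw [← hα, ← hr]; ring
  have hs' : v / D₂ v = 1 + s ^ p * y ^ i := by
    rw [← hβ, ← hs]; ring
  refine ⟨p - i, by omega, by omega, ?_, ?_⟩
  · exact config_one hx h1x hu hu' hi hi0 hr' hr0 hDu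
  · exact config_one hyp h2y hv hv' hi hi0 hs' hs0 hDv

end Crest.Agent.R009
end

-- ▼ part R009/Steinberg
section

/-!
Facts on `KOne`, `cls`, `steinberg`.
-/

set_option autoImplicit false
set_option linter.unusedSectionVars false

open Crest.NumberTheoryR.MilnorK
open scoped TensorProduct

namespace Crest.Agent.R009

section
variable {p : ℕ} [Fact p.Prime] {K : Type*} [Field K] [CharP K p]

theorem cls_mul (u v : Kˣ) : cls K p (u * v) = cls K p u + cls K p v := rfl

theorem cls_one : cls K p (1 : Kˣ) = 0 := rfl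

theorem cls_surj (c : KOne K p) : ∃ u : Kˣ, cls K p u = c := by
  obtain ⟨a, ha⟩ := QuotientAddGroup.mk_surjective c
  exact ⟨a.toMul, ha⟩

theorem cls_eq_zero_iff {u : Kˣ} : cls K p u = 0 ↔ Pth p (u : K) := by
  unfold cls
  rw [QuotientAddGroup.eq_zero_iff]
  constructor
  · rintro ⟨w, hw⟩
    refine ⟨(w.toMul : Kˣ), ?_⟩
    have h1 : u = w.toMul ^ p := by
      have := congrArg Additive.toMul hw
      exact this.symm
    rw [h1, Units.val_pow_eq_pow_val]
  · rintro ⟨a, ha⟩
    have ha0 : a ≠ 0 := by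
      rintro rfl
      rw [zero_pow (Fact.out : p.Prime).ne_zero] at ha
      exact u.ne_zero ha
    refine ⟨Additive.ofMul (Units.mk0 a ha0), ?_⟩
    apply Additive.toMul.injective
    apply Units.ext
    exact ha.symm

theorem cls_inv (u : Kˣ) : cls K p u⁻¹ = - cls K p u := rfl

theorem cls_eq_iff {u v : Kˣ} : cls K p u = cls K p v ↔ PEq p (u : K) (v : K) := by
  rw [← sub_eq_zero]
  have h1 : cls K p u - cls K p v = cls K p (u * v⁻¹) := by
    rw [cls_mul, cls_inv, sub_eq_add_neg]
  rw [h1, cls_eq_zero_iff]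
  constructor
  · rintro ⟨a, ha⟩
    refine ⟨a, ?_, ?_⟩
    · rintro rfl
      rw [zero_pow (Fact.out : p.Prime).ne_zero] at ha
      exact (u * v⁻¹).ne_zero ha
    · rw [← ha]
      simp
  · rintro ⟨a, _, ha⟩
    refine ⟨a, ?_⟩
    rw [Units.val_mul, ha]
    simp

theorem cls_pow (u : Kˣ) (n : ℕ) : cls K p (u ^ n) = (n : ZMod p) • cls K p u := by
  induction n with
  | zero => rw [pow_zero, cls_one, Nat.cast_zero, zero_smul]
  | succ n ih => rw [pow_succ, cls_mul, ih, Nat.cast_succ, add_smul, one_smul]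

/-- logarithmic derivative as an additive map on `K^×/p`. -/
def dlog (p : ℕ) [Fact p.Prime] {K : Type*} [Field K] [CharP K p] (D : Derivation ℤ K K) :
    KOne K p →+ K :=
  QuotientAddGroup.lift (pMultiples K p)
    { toFun := fun u => D ((u.toMul : Kˣ) : K) / ((u.toMul : Kˣ) : K)
      map_zero' := by
        simp
      map_add' := by
        intro a b
        rw [toMul_add, Units.val_mul, Derivation.leibniz]
        have ha := (a.toMul).ne_zero
        have hb := (b.toMul).ne_zero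
        simp only [smul_eq_mul]
        field_simp
        ring }
    (by
      rintro u ⟨w, rfl⟩
      rw [AddMonoidHom.mem_ker]
      have h1 : ((Additive.toMul ((nsmulAddMonoidHom p) w) : Kˣ) : K) = ((w.toMul : Kˣ) : K) ^ p := by
        rfl
      simp only [AddMonoidHom.coe_mk, ZeroHom.coe_mk]
      rw [h1, D_pow_p, zero_div])


/-- the bilinear form `dlog D₁ ∧ dlog D₂` on `KOne ⊗ KOne` kills the Steinberg subspace. -/
theorem wedge_eq (D₁ D₂ : Derivation ℤ K K) {u v : Kˣ}
    (h : TensorProduct.tmul (ZMod p) (cls K p u) (cls K p v) ∈ steinberg K p) :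
    D₁ (u : K) * D₂ (v : K) = D₂ (u : K) * D₁ (v : K) := by
  let _ : Algebra (ZMod p) K := ZMod.algebra K p
  let l₁ : KOne K p →ₗ[ZMod p] K := (dlog p D₁).toZModLinearMap p
  let l₂ : KOne K p →ₗ[ZMod p] K := (dlog p D₂).toZModLinearMap p
  let B : TensorProduct (ZMod p) (KOne K p) (KOne K p) →ₗ[ZMod p] K :=
    TensorProduct.lift ((LinearMap.mul (ZMod p) K).compl₁₂ l₁ l₂ -
      (LinearMap.mul (ZMod p) K).compl₁₂ l₂ l₁)
  have hB : ∀ a b : Kˣ, B (TensorProduct.tmul (ZMod p) (cls K p a) (cls K p b)) =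
      (D₁ (a : K) / (a : K)) * (D₂ (b : K) / (b : K)) -
      (D₂ (a : K) / (a : K)) * (D₁ (b : K) / (b : K)) := fun a b => rfl
  have hker : steinberg K p ≤ LinearMap.ker B := by
    unfold steinberg
    rw [Submodule.span_le]
    rintro t ⟨f, hf, hf1, rfl⟩
    rw [SetLike.mem_coe, LinearMap.mem_ker, hB]
    simp only [Units.val_mk0, map_sub, Derivation.map_one_eq_zero, zero_sub]
    field_simp
    ring
  have h0 : B (TensorProduct.tmul (ZMod p) (cls K p u) (cls K p v)) = 0 := hker h
  rw [hB] at h0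
  have hu := u.ne_zero
  have hv := v.ne_zero
  field_simp at h0
  rw [mul_zero] at h0
  exact sub_eq_zero.mp h0

/-- Steinberg related implies `p`-dependent -/
theorem mem_FX_of_steinberg {u v : Kˣ} (hu : ¬ Pth p (u : K))
    (h : TensorProduct.tmul (ZMod p) (cls K p u) (cls K p v) ∈ steinberg K p) :
    (v : K) ∈ FX p (u : K) := by
  by_contra hv
  obtain ⟨D₁, D₂, h1, h2, h3, h4⟩ := exists_derivations hu hv
  have := wedge_eq D₁ D₂ h
  rw [h1, h2, h3, h4, zero_mul] at this
  exact mul_ne_zero u.ne_zero v.ne_zero this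

/-- points of the line through `1` and `x` are Steinberg related to `x`. -/
theorem steinberg_of_line {u v : Kˣ} (h : (v : K) = 1 + (u : K)) :
    TensorProduct.tmul (ZMod p) (cls K p u) (cls K p v) ∈ steinberg K p := by
  have hneg : cls K p (-u) = cls K p u := by
    rw [cls_eq_iff]
    refine ⟨-1, by simp, ?_⟩
    rw [neg_one_pow_char]
    simp
  rw [← hneg]
  apply Submodule.subset_span
  refine ⟨-(u : K), by simp, ?_, ?_⟩
  · rw [sub_neg_eq_add, ← h]
    exact v.ne_zero
  · congr 2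
    · apply Units.ext
      simp
    · apply Units.ext
      simp [h]

end

section
variable {p : ℕ} [Fact p.Prime] {K L : Type*} [Field K] [CharP K p] [Field L] [CharP L p]

theorem compat_iff (Θ : KOne K p ≃ₗ[ZMod p] KOne L p) (hΘ : IsCompatible Θ) (a b : KOne K p) :
    TensorProduct.tmul (ZMod p) a b ∈ steinberg K p ↔
      TensorProduct.tmul (ZMod p) (Θ a) (Θ b) ∈ steinberg L p := by
  unfold IsCompatible at hΘ
  constructor
  · intro h
    rw [← hΘ]
    exact ⟨_, h, TensorProduct.map_tmul _ _ _ _⟩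
  · intro h
    rw [← hΘ] at h
    obtain ⟨t, ht, hte⟩ := h
    have hinj : Function.Injective (TensorProduct.map Θ.toLinearMap Θ.toLinearMap) :=
      (TensorProduct.congr Θ Θ).injective
    have h1 : TensorProduct.map Θ.toLinearMap Θ.toLinearMap (TensorProduct.tmul (ZMod p) a b) =
        TensorProduct.tmul (ZMod p) (Θ a) (Θ b) := TensorProduct.map_tmul _ _ _ _
    rw [← h1] at hte
    rw [← hinj hte]
    exact ht

theorem isCompatible_symm (Θ : KOne K p ≃ₗ[ZMod p] KOne L p) (hΘ : IsCompatible Θ) :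
    IsCompatible Θ.symm := by
  unfold IsCompatible at hΘ ⊢
  rw [← hΘ, ← Submodule.map_comp, ← TensorProduct.map_comp]
  have h1 : Θ.symm.toLinearMap ∘ₗ Θ.toLinearMap = LinearMap.id := by
    ext x
    simp
  rw [h1, TensorProduct.map_id, Submodule.map_id]

end

end Crest.Agent.R009
end

-- ▼ part R009/Good
section

/-!
The abstract properties (`Good`) of the map `θ : K → L` of representatives, and their consequences.
-/

set_option autoImplicit false
set_option linter.unusedSectionVars false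

open Crest.NumberTheoryR.MilnorK

namespace Crest.Agent.R009

section
variable {p : ℕ} [Fact p.Prime] {K : Type*} [Field K] [CharP K p]

theorem PEq.refl (x : K) : PEq p x x := ⟨1, one_ne_zero, by simp⟩

theorem PEq.symm {x y : K} (h : PEq p x y) : PEq p y x := by
  obtain ⟨a, ha, rfl⟩ := h
  refine ⟨a⁻¹, inv_ne_zero ha, ?_⟩
  rw [← mul_assoc, ← mul_pow, inv_mul_cancel₀ ha, one_pow, one_mul]

theorem PEq.trans {x y z : K} (h : PEq p x y) (h' : PEq p y z) : PEq p x z := by
  obtain ⟨a, ha, rfl⟩ := h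
  obtain ⟨b, hb, rfl⟩ := h'
  exact ⟨a * b, mul_ne_zero ha hb, by rw [mul_pow]; ring⟩

theorem PEq.mul {x y x' y' : K} (h : PEq p x y) (h' : PEq p x' y') : PEq p (x * x') (y * y') := by
  obtain ⟨a, ha, rfl⟩ := h
  obtain ⟨b, hb, rfl⟩ := h'
  exact ⟨a * b, mul_ne_zero ha hb, by rw [mul_pow]; ring⟩

theorem PEq.pow {x y : K} (h : PEq p x y) (n : ℕ) : PEq p (x ^ n) (y ^ n) := by
  obtain ⟨a, ha, rfl⟩ := h
  exact ⟨a ^ n, pow_ne_zero n ha, by rw [mul_pow, ← pow_mul, ← pow_mul, mul_comm n p]⟩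

theorem PEq.inv {x y : K} (h : PEq p x y) : PEq p x⁻¹ y⁻¹ := by
  obtain ⟨a, ha, rfl⟩ := h
  exact ⟨a⁻¹, inv_ne_zero ha, by rw [mul_inv, inv_pow]⟩

theorem PEq.pth {x y : K} (h : PEq p x y) (hx : Pth p x) : Pth p y := by
  obtain ⟨a, ha, rfl⟩ := h.symm
  exact (pth_pow a).mul hx

theorem PEq.mem {x y z : K} (h : PEq p x y) (hx : x ∈ FX p z) : y ∈ FX p z := by
  obtain ⟨a, ha, rfl⟩ := h.symm
  exact mul_mem (pth_pow a).mem_FX hx

theorem PEq.FX_le {x y : K} (h : PEq p x y) : FX p y ≤ FX p x :=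
  Crest.Agent.R009.FX_le (h.mem (self_mem_FX x))

theorem PEq.FX_eq {x y : K} (h : PEq p x y) : FX p x = FX p y :=
  le_antisymm h.symm.FX_le h.FX_le

theorem PEq.of_pth {x : K} (hx : Pth p x) (hx0 : x ≠ 0) : PEq p x 1 := by
  obtain ⟨a, rfl⟩ := hx
  refine ⟨a, ?_, by rw [mul_one]⟩
  rintro rfl
  exact hx0 (zero_pow (Fact.out : p.Prime).ne_zero)

theorem exists_D {x : K} (hx : ¬ Pth p x) : ∃ D : Derivation ℤ K K, D x = x := by
  obtain ⟨D, -, hD⟩ := exists_derivation (M := PF p K) (fun a => pth_pow a) hx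
  refine ⟨(x / D x) • D, ?_⟩
  simp only [Derivation.smul_apply, smul_eq_mul]
  field_simp

theorem natCast_ne_zero {c : ℕ} (h0 : 0 < c) (hc : c < p) : (c : K) ≠ 0 := by
  intro h
  have h1 := (CharP.cast_eq_zero_iff K p c).mp h
  exact absurd (Nat.le_of_dvd h0 h1) (not_le.mpr hc)

theorem not_pth_pow {x : K} (hx : ¬ Pth p x) {c : ℕ} (h0 : 0 < c) (hc : c < p) :
    ¬ Pth p (x ^ c) := by
  intro h
  obtain ⟨D, hD⟩ := exists_D hx
  have h1 := D_pth D h
  rw [D_pow_of_eq hD] at h1
  rcases mul_eq_zero.mp h1 with h2 | h2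
  · exact natCast_ne_zero h0 hc h2
  · have h3 : x = 0 := pow_eq_zero_iff (by omega) |>.mp h2
    exact hx (h3 ▸ pth_zero)

theorem FX_pow {x : K} {c : ℕ} (h0 : 0 < c) (hc : c < p) : FX p (x ^ c) = FX p x := by
  by_cases hx : Pth p x
  · ext y
    have hxc : Pth p (x ^ c) := by
      obtain ⟨a, rfl⟩ := hx
      exact ⟨a ^ c, by rw [← pow_mul, ← pow_mul, mul_comm]⟩
    rw [mem_FX_of_pth hx, mem_FX_of_pth hxc]
  · exact FX_eq (pow_mem (self_mem_FX x) c) (not_pth_pow hx h0 hc)

theorem pth_pow_iff {x : K} {c : ℕ} (h0 : 0 < c) (hc : c < p) : Pth p (x ^ c) ↔ Pth p x := by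
  constructor
  · intro h
    by_contra hx
    exact not_pth_pow hx h0 hc h
  · rintro ⟨a, rfl⟩
    exact ⟨a ^ c, by rw [← pow_mul, ← pow_mul, mul_comm]⟩

/-- uniqueness of the exponent `c` -/
theorem unique_c {x u r s : K} (hx : ¬ Pth p x) {c d : ℕ} (hc0 : 0 < c) (hc : c < p)
    (hd0 : 0 < d) (hd : d < p) (hr : r ≠ 0)
    (h1 : PEq p (u ^ c) (x ^ c + r ^ p)) (h2 : PEq p (u ^ d) (x ^ d + s ^ p)) : c = d := by
  obtain ⟨D, hD⟩ := exists_D hx
  have hx0 : x ≠ 0 := by
    rintro rfl
    exact hx pth_zero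
  have hne : ∀ (e : ℕ) (t : K), 0 < e → e < p → x ^ e + t ^ p ≠ 0 := by
    intro e t he0 he h
    apply not_pth_pow hx he0 he
    rw [eq_neg_of_add_eq_zero_left h]
    exact (pth_pow t).neg
  have hkey : ∀ (e : ℕ) (t : K), 0 < e → e < p → PEq p (u ^ e) (x ^ e + t ^ p) →
      D u * (x ^ e + t ^ p) = u * x ^ e := by
    intro e t he0 he h
    obtain ⟨a, ha, hae⟩ := h
    have h3 : D (u ^ e) = a ^ p * ((e : K) * x ^ e) := by
      rw [hae, Derivation.leibniz, map_add, D_pow_p (p := p) D t, D_pow_p (p := p) D a,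
        D_pow_of_eq hD]
      simp only [smul_eq_mul, mul_zero, add_zero]
    rw [Derivation.leibniz_pow] at h3
    obtain ⟨j, hj⟩ : ∃ j, e = j + 1 := ⟨e - 1, by omega⟩
    rw [hj] at h3
    simp only [Nat.add_sub_cancel, smul_eq_mul, nsmul_eq_mul] at h3
    rw [← hj] at h3
    have he' : (e : K) ≠ 0 := natCast_ne_zero he0 he
    have h4 : u ^ j * D u = a ^ p * x ^ e := by
      apply mul_left_cancel₀ he'
      linear_combination h3
    have h5 : u ^ e ≠ 0 := by
      rw [hae]
      exact mul_ne_zero (pow_ne_zero _ ha) (hne e t he0 he)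
    have hu0 : u ≠ 0 := by
      rintro rfl
      exact h5 (zero_pow (by omega))
    apply mul_left_cancel₀ (mul_ne_zero (pow_ne_zero j hu0) (pow_ne_zero p ha))
    have h6 : u ^ e = u ^ j * u := by rw [hj, pow_succ]
    calc u ^ j * a ^ p * (D u * (x ^ e + t ^ p)) = (u ^ j * D u) * (a ^ p * (x ^ e + t ^ p)) := by ring
      _ = (a ^ p * x ^ e) * (u ^ j * u) := by rw [h4, ← hae, h6]
      _ = _ := by ring
  have k1 := hkey c r hc0 hc h1
  have k2 := hkey d s hd0 hd h2
  have hu0 : u ≠ 0 := by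
    rintro rfl
    obtain ⟨a, ha, hae⟩ := h1
    rw [zero_pow (by omega)] at hae
    exact mul_ne_zero (pow_ne_zero _ ha) (hne c r hc0 hc) hae.symm
  -- x^c s^p = x^d r^p
  have h3 : x ^ c * s ^ p = x ^ d * r ^ p := by
    apply mul_left_cancel₀ hu0
    linear_combination (-(x ^ d + s ^ p)) * k1 + (x ^ c + r ^ p) * k2
  have h4 : D (x ^ c * s ^ p) = D (x ^ d * r ^ p) := by rw [h3]
  rw [Derivation.leibniz, Derivation.leibniz, D_pow_p (p := p) D s, D_pow_p (p := p) D r,
    D_pow_of_eq hD, D_pow_of_eq hD] at h4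
  simp only [smul_eq_mul, mul_zero, zero_add] at h4
  have h5 : ((c : K) - (d : K)) * (x ^ d * r ^ p) = 0 := by
    linear_combination h4 - (c : K) * h3
  have h6 : (c : K) = (d : K) := by
    rcases mul_eq_zero.mp h5 with h | h
    · exact sub_eq_zero.mp h
    · exact absurd h (mul_ne_zero (pow_ne_zero _ hx0) (pow_ne_zero _ hr))
  exact CharP.natCast_injOn_Iio K p hc hd h6

end

variable {p : ℕ} [Fact p.Prime] {K L : Type*} [Field K] [CharP K p] [Field L] [CharP L p]

/-- the abstract properties of a map of representatives -/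
structure Good (p : ℕ) {K L : Type*} [Field K] [Field L] (θ : K → L) : Prop where
  zero_iff : ∀ x, θ x = 0 ↔ x = 0
  mul : ∀ x y : K, x ≠ 0 → y ≠ 0 → PEq p (θ (x * y)) (θ x * θ y)
  pth : ∀ x : K, Pth p x ↔ Pth p (θ x)
  dep : ∀ x y : K, y ∈ FX p x ↔ θ y ∈ FX p (θ x)

namespace Good
variable {θ : K → L} (h : Good p θ)
include h

theorem ne_zero {x : K} (hx : x ≠ 0) : θ x ≠ 0 := fun h' => hx ((h.zero_iff x).mp h')

theorem one : PEq p (θ 1) 1 :=
  PEq.of_pth ((h.pth 1).mp pth_one) (h.ne_zero one_ne_zero)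

theorem of_pth {x : K} (hx : Pth p x) (hx0 : x ≠ 0) : PEq p (θ x) 1 :=
  PEq.of_pth ((h.pth x).mp hx) (h.ne_zero hx0)

theorem congr {x y : K} (hy : y ≠ 0) (hxy : PEq p x y) : PEq p (θ x) (θ y) := by
  obtain ⟨a, ha, rfl⟩ := hxy
  have h1 := h.mul (a ^ p) y (pow_ne_zero _ ha) hy
  have h2 := h.of_pth (pth_pow a) (pow_ne_zero _ ha)
  have h3 := h1.trans (h2.mul (PEq.refl (θ y)))
  rwa [one_mul] at h3

theorem div {x y : K} (hx : x ≠ 0) (hy : y ≠ 0) : PEq p (θ (x / y)) (θ x / θ y) := by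
  have h1 := h.mul (x / y) y (div_ne_zero hx hy) hy
  rw [div_mul_cancel₀ _ hy] at h1
  have h2 := (h1.symm).mul (PEq.refl (p := p) (θ y)⁻¹)
  rw [mul_assoc, mul_inv_cancel₀ (h.ne_zero hy), mul_one, ← div_eq_mul_inv] at h2
  exact h2

theorem inj {x y : K} (hx : x ≠ 0) (hy : y ≠ 0) (hxy : PEq p (θ x) (θ y)) : PEq p x y := by
  have h1 := h.div hx hy
  have h2 : PEq p (θ x / θ y) 1 := by
    have := hxy.mul (PEq.refl (p := p) (θ y)⁻¹)
    rwa [mul_inv_cancel₀ (h.ne_zero hy), ← div_eq_mul_inv] at this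
  have h3 : Pth p (θ (x / y)) := (h1.trans h2).symm.pth pth_one
  have h4 := PEq.of_pth ((h.pth _).mpr h3) (div_ne_zero hx hy)
  have h5 := h4.mul (PEq.refl (p := p) y)
  rwa [div_mul_cancel₀ _ hy, one_mul] at h5

theorem pow {x : K} (hx : x ≠ 0) (n : ℕ) : PEq p (θ (x ^ n)) (θ x ^ n) := by
  induction n with
  | zero => rw [pow_zero, pow_zero]; exact h.one
  | succ n ih =>
    rw [pow_succ, pow_succ]
    exact (h.mul _ _ (pow_ne_zero n hx) hx).trans (ih.mul (PEq.refl _))

/-- the power of a good map by `c` prime to `p` is good -/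
theorem good_pow {c : ℕ} (h0 : 0 < c) (hc : c < p) : Good p (fun x => θ x ^ c) where
  zero_iff := by
    intro x
    rw [pow_eq_zero_iff (by omega), h.zero_iff]
  mul := by
    intro x y hx hy
    have := (h.mul x y hx hy).pow c
    rwa [mul_pow] at this
  pth := by
    intro x
    rw [pth_pow_iff h0 hc, h.pth]
  dep := by
    intro x y
    rw [FX_pow h0 hc, h.dep]
    constructor
    · intro h1
      exact pow_mem h1 c
    · intro h1
      have h2 : FX p (θ y ^ c) ≤ FX p (θ x) := FX_le h1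
      rw [FX_pow h0 hc] at h2
      exact h2 (self_mem_FX _)

/-- `θ (x + r^p)` is not a monomial in `θ x`. -/
theorem not_monomial {x r : K} (hx : ¬ Pth p x) (hr : r ≠ 0) :
    ∀ i < p, ∀ t : L, θ (x + r ^ p) ≠ t ^ p * θ x ^ i := by
  intro i hi t ht
  have hx0 : x ≠ 0 := by
    rintro rfl
    exact hx pth_zero
  have hu0 : x + r ^ p ≠ 0 := by
    intro h1
    apply hx
    rw [eq_neg_of_add_eq_zero_left h1]
    exact (pth_pow r).neg
  have ht0 : t ≠ 0 := by
    rintro rfl
    rw [zero_pow (Fact.out : p.Prime).ne_zero, zero_mul] at ht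
    exact h.ne_zero hu0 ht
  have h1 : PEq p (θ (x + r ^ p)) (θ (x ^ i)) :=
    PEq.trans ⟨t, ht0, ht⟩ (h.pow hx0 i).symm
  obtain ⟨a, ha, hae⟩ := h.inj hu0 (pow_ne_zero i hx0) h1
  obtain ⟨D, hD⟩ := exists_D hx
  have h2 : D (x + r ^ p) = (i : K) * (x + r ^ p) := by
    conv_lhs => rw [hae]
    rw [Derivation.leibniz, D_pow_of_eq hD, D_pow_p (p := p) D a]
    simp only [smul_eq_mul, mul_zero, add_zero]
    rw [hae]
    ring
  rw [map_add, hD, D_pow_p (p := p) D r, add_zero] at h2
  by_cases hi1 : (i : K) = 1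
  · rw [hi1, one_mul] at h2
    have h3 : r ^ p = 0 := by linear_combination -h2
    exact pow_ne_zero p hr h3
  · apply hx
    have h3 : (1 - (i : K)) ≠ 0 := by
      intro h4
      exact hi1 (sub_eq_zero.mp h4).symm
    have h4 : x = ((i : K) * r ^ p) / (1 - (i : K)) := by
      rw [eq_div_iff h3]
      linear_combination h2
    rw [h4]
    have h5 : Pth p (i : K) := ⟨(i : K), (natCast_pow_p i).symm⟩
    exact (h5.mul (pth_pow r)).div (pth_one.sub h5)

theorem config {x y r s : K} (hx : ¬ Pth p x) (hy : y ∉ FX p x) (hr : r ≠ 0) (hs : s ≠ 0) :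
    ∃ c : ℕ, 0 < c ∧ c < p ∧ (∃ r' : L, r' ≠ 0 ∧ PEq p (θ (x + r ^ p) ^ c) (θ x ^ c + r' ^ p)) ∧
      (∃ s' : L, s' ≠ 0 ∧ PEq p (θ (y + s ^ p) ^ c) (θ y ^ c + s' ^ p)) := by
  have hyp : ¬ Pth p y := fun h' => hy h'.mem_FX
  have hx0 : x ≠ 0 := by
    rintro rfl
    exact hx pth_zero
  have hy0 : y ≠ 0 := by
    rintro rfl
    exact hyp pth_zero
  have hu0 : x + r ^ p ≠ 0 := by
    intro h1
    apply hx
    rw [eq_neg_of_add_eq_zero_left h1]
    exact (pth_pow r).neg
  have hv0 : y + s ^ p ≠ 0 := by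
    intro h1
    apply hyp
    rw [eq_neg_of_add_eq_zero_left h1]
    exact (pth_pow s).neg
  have hr' : r ^ p ≠ 0 := pow_ne_zero _ hr
  have hs' : s ^ p ≠ 0 := pow_ne_zero _ hs
  set z : K := x / r ^ p - y / s ^ p with hz
  have hz0 : z ≠ 0 := by
    intro h1
    apply hy
    have h2 : y = s ^ p * (x / r ^ p) := by
      have := sub_eq_zero.mp h1
      rw [this]
      field_simp
    rw [h2]
    exact mul_mem (pth_pow s).mem_FX (div_mem (self_mem_FX x) (pth_pow r).mem_FX)
  have hz1 : z / y ∈ FX p (x / y) := by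
    have : z / y = (x / y) / r ^ p - 1 / s ^ p := by
      rw [hz]
      field_simp
    rw [this]
    exact sub_mem (div_mem (self_mem_FX _) (pth_pow r).mem_FX)
      (div_mem (one_mem _) (pth_pow s).mem_FX)
  have hz2 : z / (y + s ^ p) ∈ FX p ((x + r ^ p) / (y + s ^ p)) := by
    have : z / (y + s ^ p) = ((x + r ^ p) / (y + s ^ p)) / r ^ p - 1 / s ^ p := by
      rw [hz]
      field_simp
      ring
    rw [this]
    exact sub_mem (div_mem (self_mem_FX _) (pth_pow r).mem_FX)
      (div_mem (one_mem _) (pth_pow s).mem_FX)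
  have hxL : ¬ Pth p (θ x) := fun h' => hx ((h.pth x).mpr h')
  have hyL : θ y ∉ FX p (θ x) := fun h' => hy ((h.dep x y).mpr h')
  refine Crest.Agent.R009.config (z := θ z) hxL hyL ?_ ?_ (h.not_monomial hx hr)
    (h.not_monomial hyp hs) (h.ne_zero hz0) ?_ ?_
  · exact (h.dep _ _).mp (add_mem (self_mem_FX x) (pth_pow r).mem_FX)
  · exact (h.dep _ _).mp (add_mem (self_mem_FX y) (pth_pow s).mem_FX)
  · have h1 := (h.dep _ _).mp hz1
    rw [(h.div hx0 hy0).FX_eq] at h1
    exact (h.div hz0 hy0).mem h1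
  · have h1 := (h.dep _ _).mp hz2
    rw [(h.div hu0 hv0).FX_eq] at h1
    exact (h.div hz0 hv0).mem h1

/-- the global exponent -/
theorem exists_c (hd : ∀ x : K, ∃ y, y ∉ FX p x) :
    ∃ c : ℕ, 0 < c ∧ c < p ∧ ∀ x r : K, ¬ Pth p x → r ≠ 0 →
      ∃ r' : L, r' ≠ 0 ∧ PEq p (θ (x + r ^ p) ^ c) (θ x ^ c + r' ^ p) := by
  obtain ⟨x₀, hx₀'⟩ := hd 1
  have hx₀ : ¬ Pth p x₀ := fun h' => hx₀' h'.mem_FX
  obtain ⟨y₀, hy₀'⟩ := hd x₀
  have hy₀ : ¬ Pth p y₀ := fun h' => hy₀' h'.mem_FX
  obtain ⟨c, hc0, hc, ⟨r₁, hr₁, h1⟩, ⟨s₁, hs₁, h2⟩⟩ :=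
    h.config (r := 1) (s := 1) hx₀ hy₀' one_ne_zero one_ne_zero
  refine ⟨c, hc0, hc, ?_⟩
  intro x r hx hr
  by_cases hxx : x ∈ FX p x₀
  · -- then `y₀ ∉ FX x`
    have h3 : y₀ ∉ FX p x := by
      rw [FX_eq hxx hx]
      exact hy₀'
    obtain ⟨d, hd0, hdp, ⟨r₂, hr₂, h4⟩, ⟨s₂, hs₂, h5⟩⟩ :=
      h.config (r := r) (s := 1) hx h3 hr one_ne_zero
    have hyL : ¬ Pth p (θ y₀) := fun h' => hy₀ ((h.pth _).mpr h')
    have hcd : c = d := unique_c hyL hc0 hc hd0 hdp hs₁ h2 h5
    subst hcd
    exact ⟨r₂, hr₂, h4⟩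
  · obtain ⟨d, hd0, hdp, ⟨r₂, hr₂, h4⟩, ⟨s₂, hs₂, h5⟩⟩ :=
      h.config (r := 1) (s := r) hx₀ hxx one_ne_zero hr
    have hxL : ¬ Pth p (θ x₀) := fun h' => hx₀ ((h.pth _).mpr h')
    have hcd : c = d := unique_c hxL hc0 hc hd0 hdp hr₁ h1 h4
    subst hcd
    exact ⟨s₂, hs₂, h5⟩

end Good

end Crest.Agent.R009
end

-- ▼ part R009/Recon
section

/-!
Reconstruction of a ring homomorphism from a line-preserving map.
-/

set_option autoImplicit false

namespace Crest.Agent.R009

namespace Recon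

open scoped Pointwise

section Aux

variable {p : ℕ} [Fact p.Prime] {K : Type*} [Field K] [CharP K p]

theorem peq_refl (x : K) : PEq p x x := ⟨1, one_ne_zero, by simp⟩

omit [Fact p.Prime] [CharP K p] in
theorem peq_symm {x y : K} (h : PEq p x y) : PEq p y x := by
  obtain ⟨a, ha, rfl⟩ := h
  refine ⟨a⁻¹, inv_ne_zero ha, ?_⟩
  rw [← mul_assoc, ← mul_pow, inv_mul_cancel₀ ha, one_pow, one_mul]

omit [Fact p.Prime] [CharP K p] in
theorem peq_trans {x y z : K} (h : PEq p x y) (h' : PEq p y z) : PEq p x z := by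
  obtain ⟨a, ha, rfl⟩ := h
  obtain ⟨b, hb, rfl⟩ := h'
  exact ⟨a * b, mul_ne_zero ha hb, by rw [mul_pow]; ring⟩

omit [Fact p.Prime] [CharP K p] in
theorem peq_mul {x y x' y' : K} (h : PEq p x x') (h' : PEq p y y') :
    PEq p (x * y) (x' * y') := by
  obtain ⟨a, ha, rfl⟩ := h
  obtain ⟨b, hb, rfl⟩ := h'
  exact ⟨a * b, mul_ne_zero ha hb, by rw [mul_pow]; ring⟩

omit [Fact p.Prime] [CharP K p] in
theorem peq_mul_right {x x' : K} (h : PEq p x x') (y : K) :
    PEq p (x * y) (x' * y) := by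
  obtain ⟨a, ha, rfl⟩ := h
  exact ⟨a, ha, by ring⟩


theorem peq_pth {x y : K} (h : PEq p x y) : Pth p x ↔ Pth p y := by
  constructor
  · intro hx
    obtain ⟨a, ha, h⟩ := peq_symm h
    rw [h]; exact (pth_pow a).mul hx
  · intro hx
    obtain ⟨a, ha, h⟩ := h
    rw [h]; exact (pth_pow a).mul hx

omit [Fact p.Prime] [CharP K p] in
theorem peq_ne_zero {x y : K} (h : PEq p x y) (hy : y ≠ 0) : x ≠ 0 := by
  obtain ⟨a, ha, rfl⟩ := h
  exact mul_ne_zero (pow_ne_zero _ ha) hy

theorem peq_of_pth {x y : K} (hx : Pth p x) (hy : Pth p y) (hx0 : x ≠ 0) (hy0 : y ≠ 0) :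
    PEq p x y := by
  have hp : p ≠ 0 := (Fact.out : p.Prime).ne_zero
  obtain ⟨a, rfl⟩ := hx
  obtain ⟨b, rfl⟩ := hy
  have ha : a ≠ 0 := fun h => hx0 (by rw [h, zero_pow hp])
  have hb : b ≠ 0 := fun h => hy0 (by rw [h, zero_pow hp])
  refine ⟨a / b, div_ne_zero ha hb, ?_⟩
  rw [div_pow, div_mul_cancel₀ _ (pow_ne_zero _ hb)]

theorem mem_FX_of_peq {x y z : K} (h : PEq p y z) (hy : z ∈ FX p x) : y ∈ FX p x := by
  obtain ⟨a, ha, rfl⟩ := h
  exact (FX p x).mul_mem (pth_pow a).mem_FX hy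

theorem FX_eq_of_peq {x y : K} (h : PEq p x y) : FX p x = FX p y :=
  le_antisymm (FX_le (mem_FX_of_peq h (self_mem_FX y)))
    (FX_le (mem_FX_of_peq (peq_symm h) (self_mem_FX x)))

/-- `p`-independent pairs -/
def Ind (p : ℕ) (x y : K) : Prop := ¬ Pth p x ∧ y ∉ FX p x

theorem Ind.symm {x y : K} (h : Ind p x y) : Ind p y x := by
  refine ⟨fun hy => h.2 hy.mem_FX, fun hx => h.2 (FX_exchange hx h.1)⟩

theorem ind_of_not_mem {x y : K} (hx : ¬ Pth p x) (hy : y ∉ FX p x) : Ind p x y := ⟨hx, hy⟩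

theorem ind_congr {x y x' y' : K} (hx : PEq p x x') (hy : PEq p y y') (h : Ind p x y) :
    Ind p x' y' := by
  refine ⟨fun h' => h.1 ((peq_pth hx).2 h'), fun h' => h.2 ?_⟩
  rw [FX_eq_of_peq hx]
  exact mem_FX_of_peq hy h'

theorem lin2 {X : K} (h : ¬ Pth p X) {a b : K} (ha : Pth p a) (hb : Pth p b)
    (he : a + b * X = 0) : a = 0 ∧ b = 0 := by
  have hb0 : b = 0 := by
    by_contra hb0
    apply h
    have : X = (-a) / b := by
      field_simp
      linear_combination he
    rw [this]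
    exact ha.neg.div hb
  subst hb0
  refine ⟨?_, rfl⟩
  simpa using he

theorem lin3 {X Y : K} (h : Ind p X Y) {a b c : K} (ha : Pth p a) (hb : Pth p b) (hc : Pth p c)
    (he : a + b * X + c * Y = 0) : a = 0 ∧ b = 0 ∧ c = 0 := by
  have hc0 : c = 0 := by
    by_contra hc0
    apply h.2
    have : Y = (-(a + b * X)) / c := by
      field_simp
      linear_combination he
    rw [this]
    refine (FX p X).div_mem ((FX p X).neg_mem ((FX p X).add_mem ha.mem_FX
      ((FX p X).mul_mem hb.mem_FX (self_mem_FX X)))) hc.mem_FX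
  subst hc0
  have := lin2 h.1 ha hb (by simpa using he)
  exact ⟨this.1, this.2, rfl⟩

theorem infinite_of_hd (hd : ∀ x : K, ∃ y, y ∉ FX p x) : Infinite K := by
  by_contra hK
  rw [not_infinite_iff_finite] at hK
  obtain ⟨y, hy⟩ := hd 0
  apply hy
  have hs : Function.Surjective (frobenius K p) :=
    Finite.surjective_of_injective (frobenius K p).injective
  obtain ⟨z, hz⟩ := hs y
  rw [← hz, frobenius_def]
  exact (pth_pow z).mem_FX

theorem not_finiteIndex (hd : ∀ x : K, ∃ y, y ∉ FX p x) (x : K) :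
    ¬ (FX p x).toAddSubgroup.FiniteIndex := by
  intro hfi
  have hinf : Infinite K := infinite_of_hd hd
  obtain ⟨y, hy⟩ := hd x
  have : Finite (K ⧸ (FX p x).toAddSubgroup) := AddSubgroup.finite_quotient_of_finiteIndex
  have hinj : Function.Injective (fun a : K => (QuotientAddGroup.mk (a ^ p * y) :
      K ⧸ (FX p x).toAddSubgroup)) := by
    intro a b hab
    simp only [QuotientAddGroup.eq] at hab
    by_contra hne
    apply hy
    have hp0 : b ^ p - a ^ p ≠ 0 := by
      intro h0
      apply hne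
      have := sub_eq_zero.1 h0
      exact (frobenius K p).injective (by simpa [frobenius_def] using this.symm)
    have hmem : (b ^ p - a ^ p) * y ∈ FX p x := by
      have : (b ^ p - a ^ p) * y = -(a ^ p * y) + b ^ p * y := by ring
      rw [this]; exact hab
    have : y = ((b ^ p - a ^ p) * y) / (b ^ p - a ^ p) := by field_simp
    rw [this]
    exact (FX p x).div_mem hmem ((pth_pow b).sub (pth_pow a)).mem_FX
  exact not_injective_infinite_finite _ hinj

/-- generic choice: finitely many cosets of subfields `K^p(x)` do not cover `K` -/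
theorem avoid (hd : ∀ x : K, ∃ y, y ∉ FX p x) (s : Finset (K × K)) :
    ∃ w : K, ∀ q ∈ s, q.1 + w ∉ FX p q.2 := by
  by_contra hcon
  push Not at hcon
  have hcov : ⋃ i ∈ s, (-i.1) +ᵥ ((FX p i.2).toAddSubgroup : Set K) = Set.univ := by
    rw [Set.eq_univ_iff_forall]
    intro w
    obtain ⟨q, hq, hw⟩ := hcon w
    simp only [Set.mem_iUnion]
    refine ⟨q, hq, ?_⟩
    rw [Set.mem_vadd_set_iff_neg_vadd_mem]
    simpa using hw
  obtain ⟨k, hk, hfi⟩ := AddSubgroup.exists_finiteIndex_of_leftCoset_cover hcov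
  exact not_finiteIndex hd _ hfi

end Aux

section Main

variable {p : ℕ} [Fact p.Prime] {K L : Type*} [Field K] [CharP K p] [Field L] [CharP L p]

/-- the hypotheses on the map `θ` together with a choice of the normalised representative `α`. -/
structure Hyp (p : ℕ) (θ α : K → L) : Prop where
  hd : ∀ x : K, ∃ y, y ∉ FX p x
  h0 : ∀ x, θ x = 0 ↔ x = 0
  hmul : ∀ x y : K, x ≠ 0 → y ≠ 0 → PEq p (θ (x * y)) (θ x * θ y)
  hpth : ∀ x : K, Pth p x ↔ Pth p (θ x)
  hdep : ∀ x y : K, y ∈ FX p x ↔ θ y ∈ FX p (θ x)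
  hα : ∀ x : K, ¬ Pth p x → PEq p (α x) (θ x)
  hα1 : ∀ x : K, ¬ Pth p x → PEq p (θ (1 + x)) (1 + α x)

variable {θ α : K → L} (H : Hyp p θ α)
include H

theorem Hyp.npth {x : K} (hx : ¬ Pth p x) : ¬ Pth p (α x) := fun h =>
  hx ((H.hpth x).2 ((peq_pth (H.hα x hx)).1 h))

theorem Hyp.ind {x y : K} (h : Ind p x y) : Ind p (α x) (α y) := by
  refine ind_congr (peq_symm (H.hα x h.1)) (peq_symm (H.hα y h.symm.1)) ⟨fun h' => h.1 ((H.hpth x).2 h'), ?_⟩
  exact fun h' => h.2 ((H.hdep x y).2 h')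

omit H in
theorem ne_zero_of_npth {x : K} (hx : ¬ Pth p x) : x ≠ 0 := fun h => hx (h ▸ pth_zero)

omit H in
theorem npth_of_not_mem {x y : K} (h : y ∉ FX p x) : ¬ Pth p y := fun h' => h h'.mem_FX

omit H in
theorem one_add_npth {x : K} (hx : ¬ Pth p x) : ¬ Pth p (1 + x) := fun h => hx (by
  have := h.sub (pth_one (p := p) (K := K))
  simpa using this)

theorem Hyp.S1 {x y : K} (h : Ind p x y) :
    ∃ l : L, Pth p l ∧ PEq p (θ (1 + x + y)) (1 + α x + l * α y) := by
  have hx1 : (1 + x) ≠ 0 := ne_zero_of_npth (one_add_npth h.1)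
  have hxm : 1 + x ∈ FX p x := (FX p x).add_mem pth_one.mem_FX (self_mem_FX x)
  set z := y / (1 + x) with hz
  have hyz : z * (1 + x) = y := by rw [hz]; field_simp
  have hzn : z ∉ FX p x := fun hzm => h.2 (hyz ▸ (FX p x).mul_mem hzm hxm)
  have hzp : ¬ Pth p z := npth_of_not_mem hzn
  have hz0 : z ≠ 0 := ne_zero_of_npth hzp
  have h1z : ¬ Pth p (1 + z) := one_add_npth hzp
  have hX1 : (1 + α x) ≠ 0 := ne_zero_of_npth (one_add_npth (H.npth h.1))
  -- α z (1 + α x) ~ α y
  have e1 : PEq p (α z * (1 + α x)) (α y) := by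
    refine peq_trans (peq_mul (H.hα z hzp) (peq_symm (H.hα1 x h.1))) ?_
    refine peq_trans (peq_symm (H.hmul z (1 + x) hz0 hx1)) ?_
    rw [hyz]
    exact peq_symm (H.hα y h.symm.1)
  obtain ⟨l, hl, e1⟩ := e1
  refine ⟨l ^ p, pth_pow l, ?_⟩
  have e2 : 1 + x + y = (1 + x) * (1 + z) := by rw [← hyz]; ring
  rw [e2]
  refine peq_trans (H.hmul _ _ hx1 (ne_zero_of_npth h1z)) ?_
  refine peq_trans (peq_mul (H.hα1 x h.1) (H.hα1 z hzp)) ?_
  have : (1 + α x) * (1 + α z) = 1 + α x + l ^ p * α y := by rw [← e1]; ring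
  rw [this]
  exact peq_refl _

theorem Hyp.S2 {x y : K} (h : Ind p x y) :
    PEq p (θ (1 + x + y)) (1 + α x + α y) := by
  obtain ⟨l, hl, h1⟩ := H.S1 h
  obtain ⟨m, hm, h2⟩ := H.S1 h.symm
  have e : 1 + y + x = 1 + x + y := by ring
  rw [e] at h2
  obtain ⟨c, hc, h3⟩ := peq_trans (peq_symm h1) h2
  have := lin3 (H.ind h) (a := 1 - c ^ p) (b := 1 - c ^ p * m) (c := l - c ^ p)
    (pth_one.sub (pth_pow c)) (pth_one.sub ((pth_pow c).mul hm)) (hl.sub (pth_pow c))
    (by linear_combination h3)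
  have hl1 : l = 1 := by linear_combination this.2.2 - this.1
  rw [hl1, one_mul] at h1
  exact h1

omit H in
theorem Ind.add_npth {x y : K} (h : Ind p x y) : ¬ Pth p (x + y) := fun h' => h.2 (by
  have : y = (x + y) - x := by ring
  rw [this]; exact (FX p x).sub_mem h'.mem_FX (self_mem_FX x))

theorem Hyp.add_ind {x y : K} (h : Ind p x y) : α (x + y) = α x + α y := by
  have hxy := h.add_npth
  have hx0 : x ≠ 0 := ne_zero_of_npth h.1
  have hy0 : y ≠ 0 := ne_zero_of_npth h.symm.1
  have h1 := H.S2 h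
  have h2 := H.hα1 (x + y) hxy
  rw [← add_assoc] at h2
  obtain ⟨c, hc, h3⟩ := peq_trans (peq_symm h2) h1
  -- second computation
  set w := y / x with hw
  have hwx : w * x = y := by rw [hw]; field_simp
  have hwn : ¬ Pth p w := fun hp => h.2 (hwx ▸ (FX p x).mul_mem hp.mem_FX (self_mem_FX x))
  have e1 : PEq p (α w * α x) (α y) := by
    refine peq_trans (peq_mul (H.hα w hwn) (H.hα x h.1)) ?_
    refine peq_trans (peq_symm (H.hmul w x (ne_zero_of_npth hwn) hx0)) ?_
    rw [hwx]
    exact peq_symm (H.hα y h.symm.1)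
  obtain ⟨m, hm, e1⟩ := e1
  have e2 : PEq p (α (x + y)) (α x + m ^ p * α y) := by
    refine peq_trans (H.hα _ hxy) ?_
    have : x + y = x * (1 + w) := by rw [← hwx]; ring
    rw [this]
    refine peq_trans (H.hmul _ _ hx0 (ne_zero_of_npth (one_add_npth hwn))) ?_
    refine peq_trans (peq_mul (peq_symm (H.hα x h.1)) (H.hα1 w hwn)) ?_
    have : α x * (1 + α w) = α x + m ^ p * α y := by rw [← e1]; ring
    rw [this]
    exact peq_refl _
  obtain ⟨f, hf, e2⟩ := e2
  have := lin3 (H.ind h) (a := c ^ p - 1) (b := c ^ p - f ^ p) (c := c ^ p - f ^ p * m ^ p)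
    ((pth_pow c).sub pth_one) ((pth_pow c).sub (pth_pow f))
    ((pth_pow c).sub ((pth_pow f).mul (pth_pow m)))
    (by linear_combination e2 - h3)
  have hc1 : c ^ p = 1 := by linear_combination this.1
  rw [hc1] at h3
  linear_combination h3

/-- independence of the auxiliary element -/
theorem Hyp.indep {u w w' : K} (hw : w ∉ FX p u) (hw' : w' ∉ FX p u) :
    α (u + w) - α w = α (u + w') - α w' := by
  classical
  obtain ⟨v, hv⟩ := avoid H.hd {(0, u + w), (u, w), (0, u + w'), (u, w')}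
  have h1 := hv (0, u + w) (by simp)
  have h2 := hv (u, w) (by simp)
  have h3 := hv (0, u + w') (by simp)
  have h4 := hv (u, w') (by simp)
  simp only [zero_add] at h1 h2 h3 h4
  have hu : ∀ {w : K}, w ∉ FX p u → ¬ Pth p (u + w) := fun {w} hw hp => hw (by
    have : w = (u + w) - u := by ring
    rw [this]; exact (FX p u).sub_mem hp.mem_FX (self_mem_FX u))
  have key : ∀ {w : K}, w ∉ FX p u → v ∉ FX p (u + w) → u + v ∉ FX p w →
      α (u + w) - α w = α (u + v) - α v := by
    intro w hw h1 h2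
    have a1 := H.add_ind (ind_of_not_mem (hu hw) h1)
    have a2 := H.add_ind (ind_of_not_mem (npth_of_not_mem hw) h2)
    have : u + w + v = w + (u + v) := by ring
    rw [this] at a1
    linear_combination a2 - a1
  rw [key hw h1 h2, key hw' h3 h4]

/-- the extension of `α` to all of `K` -/
noncomputable def Hyp.beta (u : K) : L := α (u + (H.hd u).choose) - α (H.hd u).choose

theorem Hyp.beta_eq {u w : K} (hw : w ∉ FX p u) : H.beta u = α (u + w) - α w :=
  H.indep (H.hd u).choose_spec hw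

theorem Hyp.beta_of_npth {u : K} (hu : ¬ Pth p u) : H.beta u = α u := by
  have hw := (H.hd u).choose_spec
  rw [H.beta_eq hw, H.add_ind (ind_of_not_mem hu hw)]
  ring

theorem Hyp.beta_add (u v : K) : H.beta (u + v) = H.beta u + H.beta v := by
  classical
  obtain ⟨w, hw⟩ := avoid H.hd {(0, u + v), (v, u), (0, v)}
  have h1 := hw (0, u + v) (by simp)
  have h2 := hw (v, u) (by simp)
  have h3 := hw (0, v) (by simp)
  simp only [zero_add] at h1 h2 h3
  rw [H.beta_eq h1, H.beta_eq h2, H.beta_eq h3, add_assoc]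
  ring

theorem Hyp.beta_zero : H.beta 0 = 0 := by
  have := H.beta_add 0 0
  rw [add_zero] at this
  linear_combination -this

theorem Hyp.beta_class {u : K} (hu : u ≠ 0) : PEq p (θ u) (H.beta u) := by
  by_cases hup : Pth p u
  swap
  · rw [H.beta_of_npth hup]
    exact peq_symm (H.hα u hup)
  -- `u` is a nonzero `p`-th power
  have hθu : Pth p (θ u) := (H.hpth u).1 hup
  have hθu0 : θ u ≠ 0 := fun h => hu ((H.h0 u).1 h)
  have key : ∀ w : K, ¬ Pth p w → ∃ e f : L, Pth p e ∧ Pth p f ∧ e ≠ 0 ∧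
      α (u + w) = e + f * α w := by
    intro w hw
    set z := w / u with hz
    have hzu : u * z = w := by rw [hz]; field_simp
    have hzn : ¬ Pth p z := fun h => hw (hzu ▸ hup.mul h)
    have hz0 : z ≠ 0 := ne_zero_of_npth hzn
    have hunp : ¬ Pth p (u + w) := fun h => hw (by
      have : w = (u + w) - u := by ring
      rw [this]; exact h.sub hup)
    have e1 : PEq p (α z) (α w) := by
      refine peq_trans (H.hα z hzn) (peq_trans ?_ (peq_symm (H.hα w hw)))
      have := H.hmul u z hu hz0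
      rw [hzu] at this
      refine peq_symm (peq_trans this ?_)
      have h1 := peq_mul_right (peq_of_pth hθu pth_one hθu0 one_ne_zero) (θ z)
      rwa [one_mul] at h1
    obtain ⟨l, hl, e1⟩ := e1
    have e2 : PEq p (α (u + w)) (1 + α z) := by
      refine peq_trans (H.hα _ hunp) ?_
      have : u + w = u * (1 + z) := by rw [← hzu]; ring
      rw [this]
      refine peq_trans (H.hmul _ _ hu (ne_zero_of_npth (one_add_npth hzn))) ?_
      have h1 := peq_mul (peq_of_pth hθu pth_one hθu0 one_ne_zero) (H.hα1 z hzn)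
      rwa [one_mul] at h1
    obtain ⟨c, hc, e2⟩ := e2
    refine ⟨c ^ p, c ^ p * l ^ p, pth_pow c, (pth_pow c).mul (pth_pow l), pow_ne_zero _ hc, ?_⟩
    rw [e2, e1]; ring
  obtain ⟨w, hw⟩ := H.hd u
  have hwn : ¬ Pth p w := npth_of_not_mem hw
  obtain ⟨w', hw'⟩ := H.hd w
  have hw'n : ¬ Pth p w' := npth_of_not_mem hw'
  have hFX : ∀ y, y ∈ FX p u ↔ Pth p y := fun y => mem_FX_of_pth hup
  obtain ⟨e, f, he, hf, he0, h1⟩ := key w hwn
  obtain ⟨e', f', he', hf', he0', h2⟩ := key w' hw'n
  have h3 := H.beta_eq hw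
  have h4 := H.beta_eq (u := u) (w := w') (fun h => hw'n ((hFX w').1 h))
  rw [h1] at h3
  rw [h2] at h4
  have := lin3 (H.ind ⟨hwn, hw'⟩) (a := e - e') (b := f - 1) (c := 1 - f') (he.sub he')
    (hf.sub pth_one) (pth_one.sub hf') (by linear_combination h4 - h3)
  have hb : H.beta u = e := by
    rw [h3]; linear_combination (α w) * this.2.1
  rw [hb]
  exact peq_of_pth hθu he hθu0 he0

theorem Hyp.beta_one : H.beta 1 = 1 := by
  obtain ⟨w, hw⟩ := H.hd 1
  have hwn : ¬ Pth p w := npth_of_not_mem hw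
  have h1 : PEq p (α (1 + w)) (1 + α w) :=
    peq_trans (H.hα _ (one_add_npth hwn)) (H.hα1 w hwn)
  obtain ⟨c, hc, h1⟩ := h1
  have h2 := H.beta_eq hw
  rw [h1] at h2
  have hb : Pth p (H.beta 1) := (peq_pth (H.beta_class one_ne_zero)).1 ((H.hpth 1).1 pth_one)
  have := lin2 (H.npth hwn) (a := c ^ p - H.beta 1) (b := c ^ p - 1) ((pth_pow c).sub hb)
    ((pth_pow c).sub pth_one) (by linear_combination -h2)
  linear_combination this.2 - this.1

theorem Hyp.beta_npth {u : K} (hu : ¬ Pth p u) : ¬ Pth p (H.beta u) := by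
  rw [H.beta_of_npth hu]; exact H.npth hu

theorem Hyp.beta_mul_of_npth {u v : K} (hv : ¬ Pth p v) :
    H.beta (u * v) = H.beta u * H.beta v := by
  by_cases hu : u = 0
  · subst hu; rw [zero_mul, H.beta_zero, zero_mul]
  have hv0 : v ≠ 0 := ne_zero_of_npth hv
  have key : ∀ v : K, v ≠ 0 → PEq p (H.beta (u * v)) (H.beta u * H.beta v) := by
    intro v hv0
    refine peq_trans (peq_symm (H.beta_class (mul_ne_zero hu hv0))) ?_
    exact peq_trans (H.hmul u v hu hv0) (peq_mul (H.beta_class hu) (H.beta_class hv0))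
  obtain ⟨l, hl, h1⟩ := key v hv0
  obtain ⟨m, hm, h2⟩ := key (1 + v) (ne_zero_of_npth (one_add_npth hv))
  rw [mul_add, H.beta_add, H.beta_add, H.beta_one, mul_one] at h2
  have hbu : H.beta u ≠ 0 := by
    have := peq_symm (H.beta_class hu)
    exact peq_ne_zero this (fun h => hu ((H.h0 u).1 h))
  have h3 : H.beta u * ((1 - m ^ p) + (l ^ p - m ^ p) * H.beta v) = 0 := by
    linear_combination h2 - h1
  have h4 := lin2 (H.beta_npth hv) (pth_one.sub (pth_pow m)) ((pth_pow l).sub (pth_pow m))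
    ((mul_eq_zero.1 h3).resolve_left hbu)
  have : l ^ p = 1 := by linear_combination h4.2 - h4.1
  rw [h1, this, one_mul]

theorem Hyp.beta_mul (u v : K) : H.beta (u * v) = H.beta u * H.beta v := by
  by_cases hv : Pth p v
  swap
  · exact H.beta_mul_of_npth hv
  obtain ⟨w, hw⟩ := H.hd v
  have hwn : ¬ Pth p w := npth_of_not_mem hw
  have hvw : ¬ Pth p (v + w) := fun h => hwn (by
      have : w = (v + w) - v := by ring
      rw [this]; exact h.sub hv)
  have h1 := H.beta_mul_of_npth (u := u) hvw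
  have h2 := H.beta_mul_of_npth (u := u) hwn
  rw [mul_add, H.beta_add, H.beta_add, h2] at h1
  linear_combination h1

/-- the ring homomorphism -/
noncomputable def Hyp.ringHom : K →+* L where
  toFun := H.beta
  map_one' := H.beta_one
  map_mul' := H.beta_mul
  map_zero' := H.beta_zero
  map_add' := H.beta_add

end Main

end Recon

variable {p : ℕ} [Fact p.Prime] {K L : Type*} [Field K] [CharP K p] [Field L] [CharP L p]

open Recon in
/-- TASK T3.  (`[x]` is the class of `x` modulo `p`-th powers.)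
Proof: for `x ∉ K^p` there is a unique representative `α x` of `[θ x]` with `[θ (1+x)] = [1 + α x]`.
(1) additivity for `p`-independent `x,y`: compare the three computations of `[θ(1+x+y)]` (as
`1+(x+y)`, `(1+x)(1+y/(1+x))`, `(1+y)(1+x/(1+y))`); `1, α x, α y` are linearly independent over `L^p`.
(2) extend to `K` by `α x := α (x+w) - α w` for `w ∉ K^p(x)` (independent of `w`), additive everywhere.
(3) multiplicativity from the comparison of `α (u (1 + v))` and `α (u v)`. -/
theorem reconstruct (hd : ∀ x : K, ∃ y, y ∉ FX p x) (θ : K → L)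
    (h0 : ∀ x, θ x = 0 ↔ x = 0)
    (hmul : ∀ x y : K, x ≠ 0 → y ≠ 0 → PEq p (θ (x * y)) (θ x * θ y))
    (hpth : ∀ x : K, Pth p x ↔ Pth p (θ x))
    (hdep : ∀ x y : K, y ∈ FX p x ↔ θ y ∈ FX p (θ x))
    (hLP : ∀ x : K, ¬ Pth p x → ∃ r : L, r ≠ 0 ∧ PEq p (θ (1 + x)) (1 + r ^ p * θ x)) :
    ∃ α : K →+* L, ∀ x : K, x ≠ 0 → PEq p (θ x) (α x) := by
  have hex : ∀ x : K, ∃ U : L, ¬ Pth p x → (PEq p U (θ x) ∧ PEq p (θ (1 + x)) (1 + U)) := by
    intro x
    by_cases hx : Pth p x
    · exact ⟨0, fun h => absurd hx h⟩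
    · obtain ⟨r, hr, h⟩ := hLP x hx
      exact ⟨r ^ p * θ x, fun _ => ⟨⟨r, hr, rfl⟩, h⟩⟩
  choose α hα using hex
  have H : Hyp p θ α := ⟨hd, h0, hmul, hpth, hdep, fun x hx => (hα x hx).1, fun x hx => (hα x hx).2⟩
  exact ⟨H.ringHom, fun x hx => H.beta_class hx⟩

end Crest.Agent.R009
end

-- ▼ part R009/Rigid
section

/-!
Rigidity: an endomorphism acting on `K^×/p` as a non-zero scalar is the identity.
-/

set_option autoImplicit false

namespace Crest.Agent.R009

variable {p : ℕ} [Fact p.Prime] {K : Type*} [Field K] [CharP K p]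

open Finset

/-- a natural number is its own `p`-th power in characteristic `p` -/
theorem natCast_pow_char (n : ℕ) : ((n : K)) ^ p = (n : K) := by
  have := map_natCast (frobenius K p) n
  rwa [frobenius_def] at this

/-- the coefficient comparison behind `rigid` -/
theorem rigid_coeff {u v w : K} {e : ℕ} (hu : ¬ Pth p u) (he0 : 0 < e) (hep : e < p)
    (h : 1 + v ^ p * u ^ e = w ^ p * (1 + u) ^ e) : e = 1 ∧ v = 1 := by
  have hp : p.Prime := Fact.out
  set a : ℕ → K := fun i => (if i = 0 then (1 : K) else 0) + (if i = e then v else 0)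
      - w * ((e.choose i : ℕ) : K) with ha
  have hap : ∀ i, (a i) ^ p = (if i = 0 then (1 : K) else 0) + (if i = e then v ^ p else 0)
      - w ^ p * ((e.choose i : ℕ) : K) := by
    intro i
    rw [ha]
    simp only
    rw [sub_pow_char, add_pow_char, mul_pow, natCast_pow_char]
    congr 2
    · split_ifs
      · rw [one_pow]
      · rw [zero_pow hp.ne_zero]
    · split_ifs
      · rfl
      · rw [zero_pow hp.ne_zero]
  have hsum : ∑ i ∈ range p, (a i) ^ p * u ^ i = 0 := by
    have h1 : ∑ i ∈ range p, (if i = 0 then (1 : K) else 0) * u ^ i = 1 := by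
      rw [Finset.sum_eq_single 0]
      · simp
      · intro b _ hb
        simp [hb]
      · intro hb
        exact absurd (mem_range.2 hp.pos) hb
    have h2 : ∑ i ∈ range p, (if i = e then v ^ p else 0) * u ^ i = v ^ p * u ^ e := by
      rw [Finset.sum_eq_single e]
      · simp
      · intro b _ hb
        simp [hb]
      · intro hb
        exact absurd (mem_range.2 hep) hb
    have h3 : ∑ i ∈ range p, w ^ p * ((e.choose i : ℕ) : K) * u ^ i = w ^ p * (1 + u) ^ e := by
      have hb : (1 + u) ^ e = ∑ i ∈ range (e + 1), ((e.choose i : ℕ) : K) * u ^ i := by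
        rw [add_comm 1 u, add_pow]
        refine Finset.sum_congr rfl fun i _ => ?_
        rw [one_pow, mul_one, mul_comm]
      rw [hb, Finset.mul_sum]
      symm
      rw [← Finset.sum_subset (s₁ := range (e + 1)) (s₂ := range p)]
      · refine Finset.sum_congr rfl fun i _ => ?_
        ring
      · exact Finset.range_subset_range.2 hep
      · intro i _ hi
        have : e.choose i = 0 := Nat.choose_eq_zero_of_lt (by
          rw [mem_range, not_lt] at hi; omega)
        simp [this]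
    calc ∑ i ∈ range p, (a i) ^ p * u ^ i
        = ∑ i ∈ range p, ((if i = 0 then (1 : K) else 0) * u ^ i
            + (if i = e then v ^ p else 0) * u ^ i
            - w ^ p * ((e.choose i : ℕ) : K) * u ^ i) := by
          refine Finset.sum_congr rfl fun i _ => ?_
          rw [hap i]; ring
      _ = 1 + v ^ p * u ^ e - w ^ p * (1 + u) ^ e := by
          rw [Finset.sum_sub_distrib, Finset.sum_add_distrib, h1, h2, h3]
      _ = 0 := by rw [h, sub_self]
  have hcoef := coeff_eq_zero hu hsum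
  have hw : w = 1 := by
    have := hcoef 0 hp.pos
    rw [ha] at this
    simp only [if_true, Nat.choose_zero_right, Nat.cast_one, mul_one] at this
    rw [if_neg (by omega), add_zero] at this
    exact (sub_eq_zero.1 this).symm
  have hv : v = 1 := by
    have := hcoef e hep
    rw [ha] at this
    simp only [if_true, Nat.choose_self, Nat.cast_one, mul_one] at this
    rw [if_neg (by omega), zero_add] at this
    rw [sub_eq_zero.1 this, hw]
  refine ⟨?_, hv⟩
  by_contra hne
  have h1p : 1 < p := hp.one_lt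
  have := hcoef 1 h1p
  rw [ha] at this
  simp only [Nat.choose_one_right, hw, one_mul] at this
  rw [if_neg one_ne_zero, if_neg (by omega), zero_add, zero_sub, neg_eq_zero] at this
  rw [CharP.cast_eq_zero_iff K p] at this
  exact absurd (Nat.le_of_dvd he0 this) (by omega)

/-- TASK T4.
For `u ∉ K^p`: `γ u = v^p u^e` (reduce `e` mod `p`, `0 < e < p`), `γ (1+u) = 1 + v^p u^e = w^p (1+u)^e`; compare
coefficients in the basis `1,u,…,u^(p-1)` over `K^p`: `e = 1`, `w = 1`, `v = 1`, so `γ u = u`; for `u ∈ K^p`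
write `u = (u + x) - x`. -/
theorem rigid (hx : ∃ x : K, ¬ Pth p x) (γ : K →+* K) (e : ℕ) (he : ¬ p ∣ e)
    (h : ∀ x : K, x ≠ 0 → PEq p (γ x) (x ^ e)) : γ = RingHom.id K := by
  have hp : p.Prime := Fact.out
  have key : ∀ u : K, ¬ Pth p u → γ u = u := by
    intro u hu
    have hu0 : u ≠ 0 := by
      rintro rfl
      exact hu pth_zero
    have hu1 : 1 + u ≠ 0 := by
      intro h0
      apply hu
      have : u = -1 := by linear_combination h0
      rw [this]
      exact pth_one.neg
    obtain ⟨v, -, hv⟩ := h u hu0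
    obtain ⟨w, -, hw⟩ := h (1 + u) hu1
    rw [map_add, map_one, hv] at hw
    have hdm : p * (e / p) + e % p = e := Nat.div_add_mod e p
    have hmod0 : 0 < e % p := Nat.pos_of_ne_zero fun h0 => he (Nat.dvd_of_mod_eq_zero h0)
    have hmodp : e % p < p := Nat.mod_lt _ hp.pos
    have hsplit : ∀ t : K, t ^ e = (t ^ (e / p)) ^ p * t ^ (e % p) := by
      intro t
      conv_lhs => rw [← hdm]
      rw [pow_add, ← pow_mul, mul_comm p (e / p)]
    rw [hsplit u, hsplit (1 + u), ← mul_assoc, ← mul_assoc, ← mul_pow, ← mul_pow] at hw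
    obtain ⟨he1, hv1⟩ := rigid_coeff hu hmod0 hmodp hw
    rw [hv, hsplit u, ← mul_assoc, ← mul_pow, hv1, he1, one_pow, one_mul, pow_one]
  obtain ⟨x, hx⟩ := hx
  ext u
  rw [RingHom.id_apply]
  by_cases hu : Pth p u
  · have hux : ¬ Pth p (u + x) := by
      intro hh
      apply hx
      have : x = (u + x) - u := by ring
      rw [this]
      exact hh.sub hu
    have h1 := key _ hux
    rw [map_add, key x hx] at h1
    exact add_right_cancel h1
  · exact key u hu

end Crest.Agent.R009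
end

-- ▼ part R009/TheoremA
section

/-!
Theorem A: a compatible equivalence is, up to a scalar, induced by a ring homomorphism.
-/

set_option autoImplicit false
set_option linter.unusedSectionVars false

open Crest.NumberTheoryR.MilnorK

namespace Crest.Agent.R009

variable {p : ℕ} [Fact p.Prime] {K L : Type*} [Field K] [CharP K p] [Field L] [CharP L p]

open Classical in
/-- a map of representatives for `Θ` -/
noncomputable def rep (Θ : KOne K p ≃ₗ[ZMod p] KOne L p) (x : K) : L :=
  if h : x = 0 then 0 else ((Classical.choose (cls_surj (Θ (cls K p (Units.mk0 x h)))) : Lˣ) : L)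

theorem rep_zero (Θ : KOne K p ≃ₗ[ZMod p] KOne L p) : rep Θ 0 = 0 := by
  unfold rep
  simp

theorem rep_spec (Θ : KOne K p ≃ₗ[ZMod p] KOne L p) (u : Kˣ) :
    ∃ v : Lˣ, rep Θ (u : K) = (v : L) ∧ cls L p v = Θ (cls K p u) := by
  refine ⟨Classical.choose (cls_surj (Θ (cls K p u))), ?_, ?_⟩
  · unfold rep
    rw [dif_neg u.ne_zero]
    congr 4
    rw [Units.mk0_val]
  · exact Classical.choose_spec (cls_surj (Θ (cls K p u)))

theorem rep_iff (Θ : KOne K p ≃ₗ[ZMod p] KOne L p) (u : Kˣ) (v : Lˣ) :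
    PEq p (rep Θ (u : K)) (v : L) ↔ cls L p v = Θ (cls K p u) := by
  obtain ⟨w, hw, hwc⟩ := rep_spec Θ u
  rw [hw, ← hwc, eq_comm, cls_eq_iff]

theorem rep_ne_zero (Θ : KOne K p ≃ₗ[ZMod p] KOne L p) {x : K} (hx : x ≠ 0) : rep Θ x ≠ 0 := by
  obtain ⟨v, hv, -⟩ := rep_spec Θ (Units.mk0 x hx)
  rw [Units.val_mk0] at hv
  rw [hv]
  exact v.ne_zero

theorem rep_mul (Θ : KOne K p ≃ₗ[ZMod p] KOne L p) {x y : K} (hx : x ≠ 0) (hy : y ≠ 0) :
    PEq p (rep Θ (x * y)) (rep Θ x * rep Θ y) := by
  obtain ⟨v, hv, hvc⟩ := rep_spec Θ (Units.mk0 x hx)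
  obtain ⟨w, hw, hwc⟩ := rep_spec Θ (Units.mk0 y hy)
  rw [Units.val_mk0] at hv hw
  rw [hv, hw]
  have h1 := (rep_iff Θ (Units.mk0 x hx * Units.mk0 y hy) (v * w)).mpr (by
    rw [cls_mul, cls_mul, map_add, hvc, hwc])
  simpa using h1

theorem rep_pth_iff (Θ : KOne K p ≃ₗ[ZMod p] KOne L p) (x : K) : Pth p x ↔ Pth p (rep Θ x) := by
  by_cases hx : x = 0
  · rw [hx, rep_zero]
    exact ⟨fun _ => pth_zero, fun _ => pth_zero⟩
  · obtain ⟨v, hv, hvc⟩ := rep_spec Θ (Units.mk0 x hx)
    rw [Units.val_mk0] at hv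
    rw [hv, ← cls_eq_zero_iff, hvc]
    have h1 : Pth p x ↔ cls K p (Units.mk0 x hx) = 0 := by
      rw [cls_eq_zero_iff, Units.val_mk0]
    rw [h1]
    constructor
    · intro h
      rw [h, map_zero]
    · intro h
      exact (LinearEquiv.map_eq_zero_iff Θ).mp h

theorem rep_one (Θ : KOne K p ≃ₗ[ZMod p] KOne L p) : Pth p (rep Θ 1) :=
  (rep_pth_iff Θ 1).mp pth_one

theorem rep_add_one (Θ : KOne K p ≃ₗ[ZMod p] KOne L p) (hΘ : IsCompatible Θ) {x q : K}
    (hq : rep Θ q ∈ FX p (rep Θ x)) : rep Θ (1 + q) ∈ FX p (rep Θ x) := by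
  by_cases hq0 : q = 0
  · rw [hq0, add_zero]
    exact (rep_one Θ).mem_FX
  by_cases hq1 : 1 + q = 0
  · rw [hq1, rep_zero]
    exact zero_mem _
  by_cases hpth : Pth p q
  · exact ((rep_pth_iff Θ _).mp (pth_one.add hpth)).mem_FX
  obtain ⟨v, hv, hvc⟩ := rep_spec Θ (Units.mk0 q hq0)
  obtain ⟨w, hw, hwc⟩ := rep_spec Θ (Units.mk0 (1 + q) hq1)
  rw [Units.val_mk0] at hv hw
  have h1 : TensorProduct.tmul (ZMod p) (cls K p (Units.mk0 q hq0))
      (cls K p (Units.mk0 (1 + q) hq1)) ∈ steinberg K p := steinberg_of_line rfl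
  rw [compat_iff Θ hΘ, ← hvc, ← hwc] at h1
  have h2 : ¬ Pth p (v : L) := by
    rw [← hv, ← rep_pth_iff]
    exact hpth
  have h3 := mem_FX_of_steinberg h2 h1
  rw [hv] at hq
  rw [hw]
  exact FX_le hq h3

theorem rep_dep_aux (Θ : KOne K p ≃ₗ[ZMod p] KOne L p) (hΘ : IsCompatible Θ) (x y : K)
    (hy : y ∈ FX p x) : rep Θ y ∈ FX p (rep Θ x) := by
  have hmul : ∀ a b : K, rep Θ a ∈ FX p (rep Θ x) → rep Θ b ∈ FX p (rep Θ x) →
      rep Θ (a * b) ∈ FX p (rep Θ x) := by
    intro a b ha hb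
    by_cases ha0 : a = 0
    · rw [ha0, zero_mul, rep_zero]; exact zero_mem _
    by_cases hb0 : b = 0
    · rw [hb0, mul_zero, rep_zero]; exact zero_mem _
    exact (rep_mul Θ ha0 hb0).symm.mem (mul_mem ha hb)
  have hinv : ∀ a : K, rep Θ a ∈ FX p (rep Θ x) → rep Θ a⁻¹ ∈ FX p (rep Θ x) := by
    intro a ha
    by_cases ha0 : a = 0
    · rw [ha0, inv_zero, rep_zero]; exact zero_mem _
    have h1 := rep_mul Θ ha0 (inv_ne_zero ha0)
    rw [mul_inv_cancel₀ ha0] at h1
    have h2 : rep Θ a * rep Θ a⁻¹ ∈ FX p (rep Θ x) := h1.mem (rep_one Θ).mem_FX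
    have h3 := div_mem h2 ha
    rwa [mul_div_cancel_left₀ _ (rep_ne_zero Θ ha0)] at h3
  let W : Subfield K :=
    { carrier := {w | rep Θ w ∈ FX p (rep Θ x)}
      mul_mem' := fun {a b} ha hb => hmul a b ha hb
      one_mem' := (rep_one Θ).mem_FX
      add_mem' := by
        intro a b ha hb
        by_cases ha0 : a = 0
        · rw [ha0, zero_add]; exact hb
        have h1 : a + b = a * (1 + b / a) := by
          field_simp
        rw [h1]
        refine hmul _ _ ha ?_
        apply rep_add_one Θ hΘ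
        rw [div_eq_mul_inv]
        exact hmul _ _ hb (hinv _ ha)
      zero_mem' := by
        change rep Θ 0 ∈ FX p (rep Θ x)
        rw [rep_zero]; exact zero_mem _
      neg_mem' := by
        intro a ha
        have h1 : -a = (-1) * a := by ring
        rw [h1]
        exact hmul _ _ ((rep_pth_iff Θ _).mp pth_one.neg).mem_FX ha
      inv_mem' := hinv }
  exact FX_le_of (M := W) (fun a => ((rep_pth_iff Θ _).mp (pth_pow a)).mem_FX) (self_mem_FX _) hy

theorem rep_rep_symm (Θ : KOne K p ≃ₗ[ZMod p] KOne L p) {x : K} (hx : x ≠ 0) :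
    PEq p (rep Θ.symm (rep Θ x)) x := by
  obtain ⟨v, hv, hvc⟩ := rep_spec Θ (Units.mk0 x hx)
  rw [Units.val_mk0] at hv
  rw [hv]
  have h1 := (rep_iff Θ.symm v (Units.mk0 x hx)).mpr (by rw [hvc, LinearEquiv.symm_apply_apply])
  rwa [Units.val_mk0] at h1

theorem rep_good (Θ : KOne K p ≃ₗ[ZMod p] KOne L p) (hΘ : IsCompatible Θ) : Good p (rep Θ) where
  zero_iff := by
    intro x
    constructor
    · intro h
      by_contra hx
      exact rep_ne_zero Θ hx h
    · rintro rfl
      exact rep_zero Θ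
  mul := fun x y hx hy => rep_mul Θ hx hy
  pth := rep_pth_iff Θ
  dep := by
    intro x y
    constructor
    · exact rep_dep_aux Θ hΘ x y
    · intro h
      by_cases hy : y = 0
      · rw [hy]; exact zero_mem _
      by_cases hx : x = 0
      · rw [hx, rep_zero, mem_FX_of_pth pth_zero, ← rep_pth_iff] at h
        exact h.mem_FX
      have h1 := rep_dep_aux Θ.symm (isCompatible_symm Θ hΘ) _ _ h
      rw [(rep_rep_symm Θ hx).FX_eq] at h1
      exact (rep_rep_symm Θ hy).mem h1

theorem theoremA (hd : ∀ x : K, ∃ y, y ∉ FX p x)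
    (Θ : KOne K p ≃ₗ[ZMod p] KOne L p) (hΘ : IsCompatible Θ) :
    ∃ c : ℕ, 0 < c ∧ c < p ∧ ∃ α : K →+* L, ∀ u : Kˣ,
      (c : ZMod p) • Θ (cls K p u) = cls L p (Units.map α.toMonoidHom u) := by
  have hgood := rep_good Θ hΘ
  obtain ⟨c, hc0, hc, hP⟩ := hgood.exists_c hd
  have hgood' := hgood.good_pow hc0 hc
  obtain ⟨α, hα⟩ := reconstruct hd (fun x => rep Θ x ^ c) hgood'.zero_iff hgood'.mul hgood'.pth
    hgood'.dep (by
      intro x hx
      obtain ⟨r, hr, hre⟩ := hP x 1 hx one_ne_zero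
      refine ⟨r⁻¹, inv_ne_zero hr, ?_⟩
      rw [one_pow, add_comm x 1] at hre
      refine hre.trans ?_
      refine ⟨r, hr, ?_⟩
      have hrp : r ^ p ≠ 0 := pow_ne_zero p hr
      rw [inv_pow]
      field_simp
      ring)
  refine ⟨c, hc0, hc, α, ?_⟩
  intro u
  obtain ⟨v, hv, hvc⟩ := rep_spec Θ u
  rw [← hvc, ← cls_pow, cls_eq_iff]
  have h1 := hα u u.ne_zero
  simp only [hv] at h1
  rw [Units.val_pow_eq_pow_val]
  exact h1

end Crest.Agent.R009
end

-- ▼ part R009/Geo
section

/-!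
The two facts on finitely generated extensions of algebraically closed fields.
-/

set_option autoImplicit false

namespace Crest.Agent.R009

open scoped KaehlerDifferential

variable {p : ℕ} [Fact p.Prime] {K : Type*} [Field K] [CharP K p]

/-- the elements killed by the universal derivation over an intermediate field -/
def kerUniv {k : Type*} [Field k] [Algebra k K] (M : IntermediateField k K) : Subfield K where
  carrier := {x | KaehlerDifferential.D M K x = 0}
  mul_mem' := by
    intro a b ha hb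
    have ha' : KaehlerDifferential.D M K a = 0 := ha
    have hb' : KaehlerDifferential.D M K b = 0 := hb
    change KaehlerDifferential.D M K (a * b) = 0
    rw [Derivation.leibniz, ha', hb', smul_zero, smul_zero, add_zero]
  one_mem' := Derivation.map_one_eq_zero _
  add_mem' := by
    intro a b ha hb
    have ha' : KaehlerDifferential.D M K a = 0 := ha
    have hb' : KaehlerDifferential.D M K b = 0 := hb
    change KaehlerDifferential.D M K (a + b) = 0
    rw [map_add, ha', hb', add_zero]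
  zero_mem' := Derivation.map_zero _
  neg_mem' := by
    intro a ha
    have ha' : KaehlerDifferential.D M K a = 0 := ha
    change KaehlerDifferential.D M K (-a) = 0
    rw [map_neg, ha', neg_zero]
  inv_mem' := by
    intro a ha
    have ha' : KaehlerDifferential.D M K a = 0 := ha
    change KaehlerDifferential.D M K (a⁻¹) = 0
    rw [Derivation.leibniz_inv, ha', smul_zero]

/-- If the only subfield containing the `p`-th powers and `M` is `⊤`, then `K / M` is algebraic
(here `K / k` is finitely generated). -/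
theorem isAlgebraic_of_forall {k : Type*} [Field k] [Algebra k K] [Algebra.EssFiniteType k K]
    (M : IntermediateField k K)
    (h : ∀ N : Subfield K, (∀ a : K, a ^ p ∈ N) → (∀ a ∈ M, a ∈ N) → ∀ a : K, a ∈ N) :
    Algebra.IsAlgebraic M K := by
  have hE : Algebra.EssFiniteType M K := Algebra.EssFiniteType.of_comp k M K
  have h0 : ∀ a : K, KaehlerDifferential.D M K a = 0 := by
    intro a
    refine h (kerUniv M) ?_ ?_ a
    · intro a
      change KaehlerDifferential.D M K (a ^ p) = 0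
      rw [Derivation.leibniz_pow, ← Nat.cast_smul_eq_nsmul K, CharP.cast_eq_zero, zero_smul]
    · intro a ha
      exact (KaehlerDifferential.D M K).map_algebraMap (⟨a, ha⟩ : M)
  have h1 : Subsingleton (Ω[K⁄M]) := by
    rw [← Submodule.subsingleton_iff K, ← subsingleton_iff_bot_eq_top,
      ← KaehlerDifferential.span_range_derivation, eq_comm, Submodule.span_eq_bot]
    rintro _ ⟨a, rfl⟩
    exact h0 a
  have h2 : Algebra.FormallyUnramified M K := ⟨h1⟩
  have h3 : Algebra.IsSeparable M K := (Algebra.FormallyUnramified.iff_isSeparable M K).1 h2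
  infer_instance

theorem essFiniteType_of_closure (k : Subfield K)
    (hK : ∃ s : Finset K, Subfield.closure ((k : Set K) ∪ (s : Set K)) = ⊤) :
    Algebra.EssFiniteType k K := by
  obtain ⟨s, hs⟩ := hK
  rw [← IntermediateField.fg_top_iff]
  refine ⟨s, ?_⟩
  rw [eq_top_iff]
  intro x _
  have hx : x ∈ Subfield.closure ((k : Set K) ∪ (s : Set K)) := by rw [hs]; trivial
  have hle : Subfield.closure ((k : Set K) ∪ (s : Set K)) ≤
      (IntermediateField.adjoin k (s : Set K)).toSubfield := by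
    rw [Subfield.closure_le]
    rintro y (hy | hy)
    · exact (IntermediateField.adjoin k (s : Set K)).algebraMap_mem ⟨y, hy⟩
    · exact IntermediateField.subset_adjoin k (s : Set K) hy
  exact hle hx

/-- TASK T1.  Transcendence degree at least 2 implies `K ≠ K^p(x)`. -/
theorem geo1 (k : Subfield K) [IsAlgClosed k]
    (hK : ∃ s : Finset K, Subfield.closure ((k : Set K) ∪ (s : Set K)) = ⊤)
    (hK2 : 2 ≤ Algebra.trdeg k K) (x : K) : ∃ y, y ∉ FX p x := by
  by_contra hcon
  push Not at hcon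
  have hE := essFiniteType_of_closure k hK
  have h1 : Algebra.IsAlgebraic (IntermediateField.adjoin k ({x} : Set K)) K := by
    refine isAlgebraic_of_forall (p := p) _ ?_
    intro N hN hM a
    exact FX_le_of hN (hM x (IntermediateField.mem_adjoin_simple_self k x)) (hcon a)
  have h2 : Algebra.IsAlgebraic (Algebra.adjoin k ({x} : Set K)) K := by
    rwa [← IntermediateField.isAlgebraic_adjoin_iff_top] at *
  have h3 := Algebra.IsAlgebraic.trdeg_le_cardinalMk k ({x} : Set K)
  have h4 := hK2.trans h3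
  rw [Cardinal.mk_singleton] at h4
  exact absurd h4 (by norm_num)





end Crest.Agent.R009
end

-- ▼ part R009/Geo2
section

/-!
T2: an element of a finitely generated field extension `K` of an algebraically closed field `k` which has
`p^n`-th roots for all `n` lies in `k`.  (Norm and degree argument.)
-/

set_option autoImplicit false

namespace Crest.Agent.R009

open MvPolynomial

theorem totalDegree_pow_domain {R σ : Type*} [CommRing R] [IsDomain R] {f : MvPolynomial σ R}
    (hf : f ≠ 0) (n : ℕ) : (f ^ n).totalDegree = n * f.totalDegree := by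
  induction n with
  | zero => simp
  | succ n ih =>
    rw [pow_succ, totalDegree_mul_of_isDomain (pow_ne_zero n hf) hf, ih]
    ring

/-- in a purely transcendental extension, `x i ^ d` is a `q`-th power only if `q ∣ d` -/
theorem dvd_of_pow_eq_pow {k K ι : Type*} [Field k] [Field K] [Algebra k K] {x : ι → K}
    (hx : AlgebraicIndependent k x) (i : ι) (d q : ℕ) (hq : 0 < q)
    (z : IntermediateField.adjoin k (Set.range x)) (hz : (z : K) ^ q = x i ^ d) : q ∣ d := by
  set w := hx.aevalEquivField.symm z with hw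
  have hzw : hx.aevalEquivField w = z := by rw [hw, AlgEquiv.apply_symm_apply]
  have h1 : w ^ q = algebraMap (MvPolynomial ι k) (FractionRing (MvPolynomial ι k)) (X i ^ d) := by
    apply hx.aevalEquivField.injective
    apply Subtype.ext
    rw [map_pow, hzw, AlgebraicIndependent.aevalEquivField_algebraMap_apply_coe, map_pow,
      MvPolynomial.aeval_X]
    exact hz
  obtain ⟨g, hg⟩ := IsIntegrallyClosed.exists_algebraMap_eq_of_isIntegral_pow
    (R := MvPolynomial ι k) (K := FractionRing (MvPolynomial ι k)) (x := w) hq (by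
      rw [h1]; exact isIntegral_algebraMap)
  have h2 : g ^ q = X i ^ d := by
    apply IsFractionRing.injective (MvPolynomial ι k) (FractionRing (MvPolynomial ι k))
    rw [map_pow, hg, h1]
  have hg0 : g ≠ 0 := by
    rintro rfl
    rw [zero_pow hq.ne'] at h2
    exact pow_ne_zero d (MvPolynomial.X_ne_zero i) h2.symm
  have h3 := congrArg MvPolynomial.totalDegree h2
  rw [totalDegree_pow_domain hg0, totalDegree_pow_domain (MvPolynomial.X_ne_zero i),
    MvPolynomial.totalDegree_X, mul_one] at h3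
  exact ⟨_, h3.symm⟩

/-- T2 -/
theorem geo2' {p : ℕ} [Fact p.Prime] {K : Type*} [Field K] (k : Subfield K) [IsAlgClosed k]
    (hK : ∃ s : Finset K, Subfield.closure ((k : Set K) ∪ (s : Set K)) = ⊤)
    (a : K) (ha : ∀ n : ℕ, ∃ b : K, b ^ (p ^ n) = a) : a ∈ k := by
  have hp : p.Prime := Fact.out
  by_contra hak
  have htr : Transcendental k a := by
    intro halg
    have h1 : IsIntegral k a := halg.isIntegral
    have : Algebra.IsAlgebraic k (IntermediateField.adjoin k {a}) :=
      IntermediateField.isAlgebraic_adjoin_simple h1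
    have h2 := IntermediateField.eq_bot_of_isAlgClosed_of_isAlgebraic
      (IntermediateField.adjoin k {a})
    have h3 : a ∈ IntermediateField.adjoin k {a} := IntermediateField.mem_adjoin_simple_self k a
    rw [h2, IntermediateField.mem_bot] at h3
    obtain ⟨y, hy⟩ := h3
    exact hak (hy ▸ y.2)
  have hind : AlgebraicIndepOn k id {a} := by
    have := (algebraicIndependent_unique_type_iff (R := k) (A := K) (ι := ({a} : Set K))
      (x := fun i : ({a} : Set K) => id (i : K))).2
    apply this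
    have hd : (default : ({a} : Set K)) = ⟨a, rfl⟩ := rfl
    rw [hd]
    exact htr
  obtain ⟨B, haB, hB⟩ := exists_isTranscendenceBasis_superset hind
  have haB' : a ∈ B := haB rfl
  have halg := hB.isAlgebraic_field
  set F₀ := IntermediateField.adjoin k (Set.range ((↑) : B → K)) with hF₀
  obtain ⟨s, hs⟩ := hK
  have htop : IntermediateField.adjoin F₀ (s : Set K) = ⊤ := by
    rw [eq_top_iff]
    intro y _
    have hy : y ∈ Subfield.closure ((k : Set K) ∪ (s : Set K)) := by rw [hs]; trivial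
    have hle : Subfield.closure ((k : Set K) ∪ (s : Set K)) ≤
        (IntermediateField.adjoin F₀ (s : Set K)).toSubfield := by
      rw [Subfield.closure_le]
      rintro t (ht | ht)
      · have h1 : t ∈ F₀ := F₀.algebraMap_mem (⟨t, ht⟩ : k)
        exact (IntermediateField.adjoin F₀ (s : Set K)).algebraMap_mem (⟨t, h1⟩ : F₀)
      · exact IntermediateField.subset_adjoin F₀ (s : Set K) ht
    exact hle hy
  have hfin : FiniteDimensional F₀ K := by
    have h1 : FiniteDimensional F₀ (IntermediateField.adjoin F₀ (s : Set K)) :=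
      IntermediateField.finiteDimensional_adjoin fun x _ => (halg.isAlgebraic x).isIntegral
    rw [htop] at h1
    exact (IntermediateField.topEquiv (F := F₀) (E := K)).toLinearEquiv.finiteDimensional
  set d := Module.finrank F₀ K with hd
  have hdpos : 0 < d := Module.finrank_pos
  obtain ⟨b, hb⟩ := ha d
  have haF : a ∈ F₀ := IntermediateField.subset_adjoin k _ ⟨⟨a, haB'⟩, rfl⟩
  have hnorm : (Algebra.norm F₀ b) ^ (p ^ d) = (⟨a, haF⟩ : F₀) ^ d := by
    rw [← map_pow, hb]
    exact Algebra.norm_algebraMap (S := K) (⟨a, haF⟩ : F₀)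
  have hdvd : p ^ d ∣ d := by
    refine dvd_of_pow_eq_pow hB.1 ⟨a, haB'⟩ d (p ^ d) (pow_pos hp.pos _) (Algebra.norm F₀ b) ?_
    have := congrArg (fun t : F₀ => (t : K)) hnorm
    simpa using this
  exact absurd (Nat.le_of_dvd hdpos hdvd) (not_le.2 (Nat.lt_pow_self hp.one_lt))

end Crest.Agent.R009
end

-- ▼ part R009/Final

/-!
TASK T5: the final statement from `theoremA` (applied to `Θ` and `Θ.symm`), `rigid`, `geo1`, `geo2'`.
-/

set_option autoImplicit false
set_option linter.unusedSectionVars false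

open Crest.NumberTheoryR.MilnorK

namespace Crest.Agent.R009

section
variable {p : ℕ} [Fact p.Prime] {K L : Type*} [Field K] [CharP K p] [Field L] [CharP L p]

/-- rigidity in terms of classes -/
theorem rigid_cls (hx : ∃ x : K, ¬ Pth p x) (γ : K →+* K) (z : ZMod p) (hz : z ≠ 0)
    (h : ∀ u : Kˣ, cls K p (Units.map γ.toMonoidHom u) = z • cls K p u) : γ = RingHom.id K := by
  have hval : ((z.val : ℕ) : ZMod p) = z := ZMod.natCast_zmod_val z
  refine rigid hx γ z.val ?_ ?_
  · intro hdvd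
    apply hz
    rw [← hval]
    exact (ZMod.natCast_eq_zero_iff _ _).2 hdvd
  · intro x hx0
    have h1 := h (Units.mk0 x hx0)
    rw [← hval, ← cls_pow, cls_eq_iff] at h1
    simpa using h1

theorem exists_not_pth (hd : ∀ x : K, ∃ y, y ∉ FX p x) : ∃ x : K, ¬ Pth p x := by
  obtain ⟨y, hy⟩ := hd 0
  exact ⟨y, fun h => hy h.mem_FX⟩

/-- ring homs between such fields carry the constants into the constants -/
theorem map_mem (p : ℕ) [Fact p.Prime] (k : Subfield K) (l : Subfield L) [IsAlgClosed k] [IsAlgClosed l]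
    (hL : ∃ s : Finset L, Subfield.closure ((l : Set L) ∪ (s : Set L)) = ⊤)
    (α : K →+* L) {x : K} (hx : x ∈ k) : α x ∈ l := by
  have hp : p.Prime := Fact.out
  refine geo2' (p := p) l hL (α x) fun n => ?_
  obtain ⟨z, hz⟩ := IsAlgClosed.exists_pow_nat_eq (⟨x, hx⟩ : k) (pow_pos hp.pos n)
  refine ⟨α z, ?_⟩
  have : (z : K) ^ p ^ n = x := by
    have := congrArg (fun t : k => (t : K)) hz
    simpa using this
  rw [← map_pow, this]

end

theorem final {p : ℕ} [Fact p.Prime]
    {K L : Type*} [Field K] [Field L] [CharP K p] [CharP L p] (k : Subfield K) (l : Subfield L)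
    [IsAlgClosed k] [IsAlgClosed l]
    (hK : ∃ s : Finset K, Subfield.closure ((k : Set K) ∪ (s : Set K)) = ⊤)
    (hL : ∃ s : Finset L, Subfield.closure ((l : Set L) ∪ (s : Set L)) = ⊤)
    (hK2 : 2 ≤ Algebra.trdeg k K) (hL2 : 2 ≤ Algebra.trdeg l L)
    (Θ : KOne K p ≃ₗ[ZMod p] KOne L p) (hΘ : IsCompatible Θ) :
    ∃! α : K ≃+* L, k.map α.toRingHom = l ∧
      ∃ c : ZMod p, c ≠ 0 ∧ ∀ u : Kˣ, Θ (cls K p u) = c • cls L p (Units.map α.toRingHom.toMonoidHom u) := by
  have hp : p.Prime := Fact.out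
  have hdK : ∀ x : K, ∃ y, y ∉ FX p x := geo1 k hK hK2
  have hdL : ∀ x : L, ∃ y, y ∉ FX p x := geo1 l hL hL2
  obtain ⟨c, hc0, hcp, α, hα⟩ := theoremA hdK Θ hΘ
  obtain ⟨c', hc'0, hc'p, β, hβ⟩ := theoremA hdL Θ.symm (isCompatible_symm Θ hΘ)
  have hne : ∀ {n : ℕ}, 0 < n → n < p → ((n : ℕ) : ZMod p) ≠ 0 := by
    intro n h0 hn h
    rw [ZMod.natCast_eq_zero_iff] at h
    exact absurd (Nat.le_of_dvd h0 h) (not_le.2 hn)
  have hc : ((c : ℕ) : ZMod p) ≠ 0 := hne hc0 hcp
  have hc' : ((c' : ℕ) : ZMod p) ≠ 0 := hne hc'0 hc'p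
  have hΘα : ∀ u : Kˣ, Θ (cls K p u) = ((c : ZMod p))⁻¹ • cls L p (Units.map α.toMonoidHom u) := by
    intro u
    rw [← hα u, smul_smul, inv_mul_cancel₀ hc, one_smul]
  -- comparison of `β` with any ring hom satisfying the relation
  have comp : ∀ (α' : K →+* L) (z : ZMod p), z ≠ 0 →
      (∀ u : Kˣ, Θ (cls K p u) = z • cls L p (Units.map α'.toMonoidHom u)) →
      β.comp α' = RingHom.id K := by
    intro α' z hz h
    refine rigid_cls (exists_not_pth hdK) (β.comp α') ((c' : ZMod p) * z⁻¹)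
      (mul_ne_zero hc' (inv_ne_zero hz)) fun u => ?_
    have h1 : cls K p (Units.map (β.comp α').toMonoidHom u)
        = (c' : ZMod p) • Θ.symm (cls L p (Units.map α'.toMonoidHom u)) := by
      rw [hβ]
      rfl
    have h2 : cls L p (Units.map α'.toMonoidHom u) = z⁻¹ • Θ (cls K p u) := by
      rw [h u, smul_smul, inv_mul_cancel₀ hz, one_smul]
    rw [h1, h2, map_smul, LinearEquiv.symm_apply_apply, smul_smul]
  have hβα : β.comp α = RingHom.id K := comp α _ (inv_ne_zero hc) hΘα
  have hαβ : α.comp β = RingHom.id L := by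
    refine rigid_cls (exists_not_pth hdL) (α.comp β) ((c : ZMod p) * (c' : ZMod p))
      (mul_ne_zero hc hc') fun v => ?_
    have h1 : cls L p (Units.map (α.comp β).toMonoidHom v)
        = (c : ZMod p) • Θ (cls K p (Units.map β.toMonoidHom v)) := by
      rw [hα]
      rfl
    rw [h1, ← hβ v, map_smul, LinearEquiv.apply_symm_apply, smul_smul]
  have hβα' : ∀ x, β (α x) = x := fun x => congrArg (fun f : K →+* K => f x) hβα
  have hαβ' : ∀ y, α (β y) = y := fun y => congrArg (fun f : L →+* L => f y) hαβ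
  let e : K ≃+* L := RingEquiv.ofRingHom α β hαβ hβα
  have hexp : ∀ x, e x = α x := fun _ => rfl
  have hetoRingHom : e.toRingHom = α := RingHom.ext hexp
  refine ⟨e, ⟨?_, ((c : ZMod p))⁻¹, inv_ne_zero hc, ?_⟩, ?_⟩
  · ext y
    rw [Subfield.mem_map]
    constructor
    · rintro ⟨x, hx, rfl⟩
      exact map_mem p k l hL α hx
    · intro hy
      exact ⟨β y, map_mem p l k hK β hy, hαβ' y⟩
  · intro u
    rw [hetoRingHom]
    exact hΘα u
  · rintro α' ⟨-, z, hz, h⟩
    have h1 := comp α'.toRingHom z hz h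
    have h1' : ∀ x, β (α' x) = x := fun x => congrArg (fun f : K →+* K => f x) h1
    ext x
    apply β.injective
    rw [h1' x]
    exact (hβα' x).symm

end Crest.Agent.R009
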